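import Crest.Agent.R163.Q3.D.P7a.Par
import Crest.Agent.R163.Q3.D.F7a.F0
import Crest.Agent.R163.Q3.D.F7a.F1
import Crest.Agent.R163.Q3.D.F7a.F2
import Crest.Agent.R163.Q3.D.F7a.F3
import Crest.Agent.R163.Q3.D.F7a.F4
import Crest.Agent.R163.Q3.D.F7a.F5
import Crest.Agent.R163.Q3.D.F7a.F6
import Crest.Agent.R163.Q3.D.F7a.F7
import Crest.Agent.R163.Q3.D.F7a.F8
import Crest.Agent.R163.Q3.D.F7a.F9
import Crest.Agent.R163.Q3.D.F7a.F10
import Crest.Agent.R163.Q3.D.F7a.F11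
import Crest.Agent.R163.Q3.D.F7a.F12
import Crest.Agent.R163.Q3.D.F7a.F13
import Crest.Agent.R163.Q3.D.F7a.F14
import Crest.Agent.R163.Q3.D.F7a.F15
import Crest.Agent.R163.Q3.D.F7a.F16
import Crest.Agent.R163.Q3.D.F7a.F17
import Crest.Agent.R163.Q3.D.F7a.F18
import Crest.Agent.R163.Q3.D.F7a.F19

set_option autoImplicit false
set_option maxRecDepth 100000
set_option linter.all false
set_option Elab.async false

namespace Crest.Agent.R163.P7a

abbrev f0 := F7a.f0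
theorem hf0 : FitOK par f0 :=
  FitOK.of_list [1,2,3,4,5] (by decide +kernel) F7a.lf0
abbrev f1 := F7a.f1
theorem hf1 : FitOK par f1 :=
  FitOK.of_list [1,2,3,4,5] (by decide +kernel) F7a.lf1
abbrev f2 := F7a.f2
theorem hf2 : FitOK par f2 :=
  FitOK.of_list [1,2,3,4,5] (by decide +kernel) F7a.lf2
abbrev f3 := F7a.f3
theorem hf3 : FitOK par f3 :=
  FitOK.of_list [1,2,3,4,5] (by decide +kernel) F7a.lf3
abbrev f4 := F7a.f4
theorem hf4 : FitOK par f4 :=
  FitOK.of_list [1,2,3,4,5] (by decide +kernel) F7a.lf4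
abbrev f5 := F7a.f5
theorem hf5 : FitOK par f5 :=
  FitOK.of_list [1,2,3,4,5] (by decide +kernel) F7a.lf5
abbrev f6 := F7a.f6
theorem hf6 : FitOK par f6 :=
  FitOK.of_list [1,2,3,4,5] (by decide +kernel) F7a.lf6
abbrev f7 := F7a.f7
theorem hf7 : FitOK par f7 :=
  FitOK.of_list [1,2,3,4,5] (by decide +kernel) F7a.lf7
abbrev f8 := F7a.f8
theorem hf8 : FitOK par f8 :=
  FitOK.of_list [1,2,3,4,5] (by decide +kernel) F7a.lf8
abbrev f9 := F7a.f9
theorem hf9 : FitOK par f9 :=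
  FitOK.of_list [1,2,3,4,5] (by decide +kernel) F7a.lf9
abbrev f10 := F7a.f10
theorem hf10 : FitOK par f10 :=
  FitOK.of_list [1,2,3,4,5] (by decide +kernel) F7a.lf10
abbrev f11 := F7a.f11
theorem hf11 : FitOK par f11 :=
  FitOK.of_list [1,2,3,4,5] (by decide +kernel) F7a.lf11
abbrev f12 := F7a.f12
theorem hf12 : FitOK par f12 :=
  FitOK.of_list [1,2,3,4,5] (by decide +kernel) F7a.lf12
abbrev f13 := F7a.f13
theorem hf13 : FitOK par f13 :=
  FitOK.of_list [1,2,3,4,5] (by decide +kernel) F7a.lf13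
abbrev f14 := F7a.f14
theorem hf14 : FitOK par f14 :=
  FitOK.of_list [1,2,3,4,5] (by decide +kernel) F7a.lf14
abbrev f15 := F7a.f15
theorem hf15 : FitOK par f15 :=
  FitOK.of_list [1,2,3,4,5] (by decide +kernel) F7a.lf15
abbrev f16 := F7a.f16
theorem hf16 : FitOK par f16 :=
  FitOK.of_list [1,2,3,4,5] (by decide +kernel) F7a.lf16
abbrev f17 := F7a.f17
theorem hf17 : FitOK par f17 :=
  FitOK.of_list [1,2,3,4,5] (by decide +kernel) F7a.lf17
abbrev f18 := F7a.f18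
theorem hf18 : FitOK par f18 :=
  FitOK.of_list [1,2,3,4,5] (by decide +kernel) F7a.lf18
abbrev f19 := F7a.f19
theorem hf19 : FitOK par f19 :=
  FitOK.of_list [1,2,3,4,5] (by decide +kernel) F7a.lf19

end Crest.Agent.R163.P7a
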