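import Crest.Agent.R163.Q3.D.P7a.S0
import Crest.Agent.R163.Q3.D.P7a.H

set_option autoImplicit false
set_option maxRecDepth 100000
set_option linter.all false
set_option Elab.async false

namespace Crest.Agent.R163.P7a

theorem p0_19_42 : Ok2 par f19 ((((Box3.unit.r 0).l 1).r 0).l 1) (selB2 1 (selB2 0 (selB2 0 (selB2 0 (selB2 0 (selB2 0 (selB2 0 (selB2 0 (selB2 0 C0 127314748520905323852671782617284130323847325309010719482515944949239398839553776523415551) 637534207) 75557863725914323415048) 8) 640) 1) 112) 4) 3) :=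
  Ok2.run hw hf19 ⟨444,25,25,13,13⟩ 58
    (.chk true 0)
    (by decide +kernel)

theorem p0_19_43 : Ok2 par f19 ((((Box3.unit.r 0).l 1).r 0).l 1) (selB2 0 (selB2 0 (selB2 0 (selB2 0 (selB2 0 (selB2 0 (selB2 0 (selB2 0 (selB2 0 C0 127314748520905323852671782617284130323847325309010719482515944949239398839553776523415551) 637534207) 75557863725914323415048) 8) 640) 1) 112) 4) 3) :=
  Ok2.run hw hf19 ⟨480,19,19,13,13⟩ 58
    (.split 0 (.chk false 0) (.split 1 (.split 2 (.split 0 (.chk false 0) (.split 1 (.split 2 (.chk false 0) (.chk false 0)) (.chk false 0))) (.chk false 0)) (.chk false 0)))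
    (by decide +kernel)

theorem p0_19_44 : Ok2 par f19 ((((Box3.unit.r 0).l 1).r 0).r 1) (selB2 0 (selB2 0 (selB2 0 (selB2 0 (selB2 0 (selB2 0 (selB2 0 (selB2 0 C0 127314748520905323852671782617284130323847325309010719482515944949239398839553776523415551) 637534207) 75557863725914323415048) 8) 640) 1) 112) 4) :=
  Ok2.run hw hf19 ⟨436,25,25,13,13⟩ 58
    (.part 4 (.chk false 0) (.chk true 0))
    (by decide +kernel)

theorem p0_19_45 : Ok2 par f19 (((Box3.unit.r 0).l 1).r 0) (selB2 1 (selB2 0 (selB2 0 (selB2 0 (selB2 0 (selB2 0 (selB2 0 (selB2 0 C0 127314748520905323852671782617284130323847325309010719482515944949239398839553776523415551) 637534207) 75557863725914323415048) 8) 640) 1) 112) 4) :=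
  Ok2.run hw hf19 ⟨417,25,25,13,13⟩ 58
    (.chk true 0)
    (by decide +kernel)

theorem p0_19_46 : Ok2 par f19 (((Box3.unit.r 0).l 1).r 0) (selB2 1 (selB2 0 (selB2 0 (selB2 0 (selB2 0 (selB2 0 (selB2 0 C0 127314748520905323852671782617284130323847325309010719482515944949239398839553776523415551) 637534207) 75557863725914323415048) 8) 640) 1) 112) :=
  Ok2.run hw hf19 ⟨349,19,19,13,13⟩ 58
    (.chk false 0)
    (by decide +kernel)

theorem p0_19_47 : Ok2 par f19 ((Box3.unit.r 0).l 1) (selB2 1 (selB2 0 (selB2 0 (selB2 0 (selB2 0 (selB2 0 C0 127314748520905323852671782617284130323847325309010719482515944949239398839553776523415551) 637534207) 75557863725914323415048) 8) 640) 1) :=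
  Ok2.run hw hf19 ⟨388,25,25,13,13⟩ 58
    (.chk true 0)
    (by decide +kernel)

theorem p0_19_48 : Ok2 par f19 ((Box3.unit.r 0).l 1) (selB2 1 (selB2 0 (selB2 0 (selB2 0 (selB2 0 C0 127314748520905323852671782617284130323847325309010719482515944949239398839553776523415551) 637534207) 75557863725914323415048) 8) 640) :=
  Ok2.run hw hf19 ⟨327,19,19,13,13⟩ 58
    (.chk false 0)
    (by decide +kernel)

theorem p0_19_49 : Ok2 par f19 (((Box3.unit.r 0).r 1).l 0) (selB2 0 (selB2 0 (selB2 0 (selB2 0 (selB2 0 (selB2 0 C0 127314748520905323852671782617284130323847325309010719482515944949239398839553776523415551) 637534207) 75557863725914323415048) 8) 1008) 6) :=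
  Ok2.run hw hf19 ⟨454,25,25,13,13⟩ 58
    (.part 1 (.chk true 0) (.split 1 (.split 0 (.chk true 0) (.chk true 0)) (.chk true 0)))
    (by decide +kernel)

theorem p0_19_50 : Ok2 par f19 (((Box3.unit.r 0).r 1).r 0) (selB2 0 (selB2 0 (selB2 0 (selB2 0 (selB2 0 (selB2 0 C0 127314748520905323852671782617284130323847325309010719482515944949239398839553776523415551) 637534207) 75557863725914323415048) 8) 1008) 6) :=
  Ok2.run hw hf19 ⟨417,25,25,13,13⟩ 58
    (.chk true 0)
    (by decide +kernel)

theorem p0_19_51 : Ok2 par f19 ((Box3.unit.r 0).r 1) (selB2 1 (selB2 0 (selB2 0 (selB2 0 (selB2 0 (selB2 0 C0 127314748520905323852671782617284130323847325309010719482515944949239398839553776523415551) 637534207) 75557863725914323415048) 8) 1008) 6) :=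
  Ok2.run hw hf19 ⟨389,25,25,13,13⟩ 58
    (.chk true 0)
    (by decide +kernel)

theorem p0_19_52 : Ok2 par f19 ((Box3.unit.r 0).r 1) (selB2 1 (selB2 0 (selB2 0 (selB2 0 (selB2 0 C0 127314748520905323852671782617284130323847325309010719482515944949239398839553776523415551) 637534207) 75557863725914323415048) 8) 1008) :=
  Ok2.run hw hf19 ⟨327,19,19,13,13⟩ 58
    (.chk false 0)
    (by decide +kernel)

theorem p0_19_53 : Ok2 par f19 (Box3.unit.r 0) (selB2 1 (selB2 0 (selB2 0 (selB2 0 C0 127314748520905323852671782617284130323847325309010719482515944949239398839553776523415551) 637534207) 75557863725914323415048) 8) :=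
  Ok2.run hw hf19 ⟨354,25,25,13,13⟩ 58
    (.chk true 0)
    (by decide +kernel)

theorem p0_19_54 : Ok2 par f19 Box3.unit (selB2 1 (selB2 0 C0 127314748520905323852671782617284130323847325309010719482515944949239398839553776523415551) 637534207) :=
  Ok2.run hw hf19 ⟨320,25,25,13,13⟩ 58
    (.chk true 0)
    (by decide +kernel)


end Crest.Agent.R163.P7a
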