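import Crest.Agent.R163.Q3.D.P7a.P0_0
import Crest.Agent.R163.Q3.D.P7a.P0_1
import Crest.Agent.R163.Q3.D.P7a.P0_2
import Crest.Agent.R163.Q3.D.P7a.P0_3
import Crest.Agent.R163.Q3.D.P7a.P0_4
import Crest.Agent.R163.Q3.D.P7a.P0_5
import Crest.Agent.R163.Q3.D.P7a.P0_6
import Crest.Agent.R163.Q3.D.P7a.P0_7
import Crest.Agent.R163.Q3.D.P7a.P0_8
import Crest.Agent.R163.Q3.D.P7a.P0_9
import Crest.Agent.R163.Q3.D.P7a.P0_10

set_option autoImplicit false
set_option maxRecDepth 100000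
set_option linter.all false
set_option Elab.async false

namespace Crest.Agent.R163.P7a

theorem o0_19 : Ok2 par f19 Box3.unit C0 :=
  (Ok2.part 127314748520905323852671782617284130323847325309010719482515944949239398839553776523415551 (Ok2.part 79228162514264337593543950335 (Ok2.part 281474976710655 p0_19_2 p0_19_3) (Ok2.part 281474976710655 p0_19_0 p0_19_1)) (Ok2.part 637534207 p0_19_54 (Ok2.split 0 (Ok2.part 72311236909678930706496 p0_19_32 (Ok2.part 1 p0_19_31 (Ok2.split 1 (Ok2.part 73764441804026941460 p0_19_18 (Ok2.part 4 p0_19_17 (Ok2.split 0 (Ok2.part 1924145331711 p0_19_4 p0_19_5) (Ok2.part 2199023238528 p0_19_16 (Ok2.split 1 (Ok2.part 252 p0_19_6 p0_19_7) (Ok2.part 208 p0_19_15 (Ok2.part 2 p0_19_14 (Ok2.split 0 (Ok2.part 10 p0_19_10 (Ok2.part 1 p0_19_8 p0_19_9)) (Ok2.part 26 p0_19_13 (Ok2.split 1 p0_19_11 p0_19_12)))))))))) (Ok2.part 73764164727096743936 p0_19_30 (Ok2.split 0 (Ok2.part 7868422600324 p0_19_23 (Ok2.part 15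 p0_19_22 (Ok2.split 0 p0_19_21 (Ok2.part 15417916 p0_19_19 p0_19_20)))) (Ok2.part 8796093022116 p0_19_29 (Ok2.part 4 p0_19_28 (Ok2.split 1 (Ok2.part 2 p0_19_26 (Ok2.split 0 p0_19_24 p0_19_25)) p0_19_27)))))))) (Ok2.part 75557863725914323415048 (Ok2.part 4294967295 p0_19_33 p0_19_34) (Ok2.part 8 p0_19_53 (Ok2.split 1 (Ok2.part 640 p0_19_48 (Ok2.part 1 p0_19_47 (Ok2.split 0 (Ok2.part 8 p0_19_41 (Ok2.split 1 p0_19_40 (Ok2.part 56 p0_19_39 (Ok2.split 0 (Ok2.part 4 p0_19_37 (Ok2.split 1 p0_19_35 p0_19_36)) p0_19_38)))) (Ok2.part 112 p0_19_46 (Ok2.part 4 p0_19_45 (Ok2.split 1 (Ok2.part 3 p0_19_42 p0_19_43) p0_19_44)))))) (Ok2.part 1008 p0_19_52 (Ok2.part 6 p0_19_51 (Ok2.split 0 p0_19_49 p0_19_50)))))))))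
theorem o0_18 : Ok2 par f18 Box3.unit C0 :=
  (Ok2.part 127314748520905380391777855525586135065716774604121015664758778084648811248233397865943039 (Ok2.part 5575186299632655785383929568162090376495103 (Ok2.part 2361183241434822606847 p0_18_2 p0_18_3) (Ok2.part 2361183241434822606847 p0_18_0 p0_18_1)) p0_18_4)
theorem o0_17 : Ok2 par f17 Box3.unit C0 :=
  (Ok2.part 3916788661975518923088216482602196174244633525984221794516144986241184687854592473432063 (Ok2.part 332306998946228968225951765070086143 (Ok2.part 576460752303423487 p0_17_2 p0_17_3) (Ok2.part 576460752303423487 p0_17_0 p0_17_1)) (Ok2.split 1 (Ok2.part 414331165718085554 p0_17_4 p0_17_5) (Ok2.part 324259173171200002 p0_17_12 (Ok2.split 0 p0_17_11 (Ok2.part 35409215774337023 p0_17_10 (Ok2.split 1 p0_17_9 (Ok2.part 16777216 p0_17_8 (Ok2.split 0 p0_17_6 p0_17_7))))))))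
theorem o0_16 : Ok2 par f16 Box3.unit C0 :=
  (Ok2.part 90388497705645119217349852056515080528847152303710469976838108282543656942943358662213631 (Ok2.part 4835703278458516698824703 (Ok2.part 2199023255551 p0_16_2 p0_16_3) (Ok2.part 2199023255551 p0_16_0 p0_16_1)) (Ok2.split 0 (Ok2.part 5444517870735015415413993718908291379199 (Ok2.part 36893488147419103231 (Ok2.part 4294967295 p0_16_6 p0_16_7) (Ok2.part 8589934591 p0_16_4 p0_16_5)) p0_16_8) (Ok2.part 4104656050983820215526956202145704057856 p0_16_48 (Ok2.split 1 (Ok2.part 71176035760409931224119861366954655940 p0_16_41 (Ok2.split 0 (Ok2.part 2251799813685247 p0_16_9 p0_16_10) (Ok2.part 316912650057057350374175801344 p0_16_40 (Ok2.split 1 (Ok2.part 4992307276512463468834829895709 p0_16_28 (Ok2.split 0 (Ok2.part 4294967295 p0_16_11 p0_16_12) (Ok2.split 1 (Ok2.part 2355347420742680571 (Ok2.part 67108863 p0_16_13 p0_16_14) (Ok2.split 1 (Ok2.part 4094 p0_16_19 (Ok2.split 0 p0_16_18 (Ok2.split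 0 p0_16_17 (Ok2.split 1 p0_16_15 p0_16_16)))) (Ok2.part 3583 p0_16_20 p0_16_21))) (Ok2.part 36880118085756944477 p0_16_27 (Ok2.split 0 p0_16_26 (Ok2.part 4 p0_16_25 (Ok2.split 1 (Ok2.part 134217719 p0_16_22 p0_16_23) p0_16_24))))))) (Ok2.part 5070563715286541488321589149695 (Ok2.part 35184372088831 p0_16_29 p0_16_30) (Ok2.split 0 p0_16_39 (Ok2.split 1 (Ok2.part 4043 p0_16_37 (Ok2.split 0 p0_16_36 (Ok2.split 1 (Ok2.part 4 p0_16_34 (Ok2.split 0 p0_16_33 (Ok2.split 2 p0_16_31 p0_16_32))) p0_16_35))) p0_16_38))))))) (Ok2.part 85070591730234615865843651720367824703 (Ok2.part 1152921504606846975 (Ok2.part 1073741823 p0_16_44 p0_16_45) (Ok2.part 1073741823 p0_16_42 p0_16_43)) (Ok2.split 0 p0_16_46 p0_16_47))))))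
theorem o0_15 : Ok2 par f15 Box3.unit C0 :=
  (Ok2.part 127314748520905380391777855525586135065716774604121015664758778083454054068298450187845631 (Ok2.part 22300745198530623141535718272648361505980415 (Ok2.part 4722366482869645213695 (Ok2.part 68719476735 p0_15_6 p0_15_7) (Ok2.part 68719476735 p0_15_4 p0_15_5)) (Ok2.part 4722366482869645213695 (Ok2.part 68719476735 p0_15_2 p0_15_3) (Ok2.part 68719476735 p0_15_0 p0_15_1))) (Ok2.split 0 (Ok2.part 253 p0_15_11 (Ok2.split 1 p0_15_10 (Ok2.split 0 p0_15_8 p0_15_9))) (Ok2.part 154 p0_15_18 (Ok2.split 0 (Ok2.part 3 p0_15_16 (Ok2.split 1 p0_15_15 (Ok2.part 1 p0_15_14 (Ok2.split 1 p0_15_12 p0_15_13)))) p0_15_17))))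
theorem o0_14 : Ok2 par f14 Box3.unit C0 :=
  (Ok2.part 127190417711802933731239009963549429855691660566421678735398662090255517720828029855334399 (Ok2.part 89202980794122492566142873090593446023921663 (Ok2.part 9444732965739290427391 (Ok2.part 68719476735 p0_14_6 p0_14_7) (Ok2.part 68719476735 p0_14_4 p0_14_5)) (Ok2.part 9444732965739290427391 (Ok2.part 68719476735 p0_14_2 p0_14_3) (Ok2.part 68719476735 p0_14_0 p0_14_1))) (Ok2.split 0 p0_14_8 p0_14_9))
theorem o0_13 : Ok2 par f13 Box3.unit C0 :=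
  (Ok2.part 127314748520905380391777855525586135065716774604121015664758778084629941769277065555607551 (Ok2.part 178405961588244985132285746181186892047843327 (Ok2.part 9444732965739290427391 (Ok2.part 68719476735 p0_13_6 p0_13_7) (Ok2.part 137438953471 p0_13_4 p0_13_5)) (Ok2.part 18889465931478580854783 (Ok2.part 137438953471 p0_13_2 p0_13_3) (Ok2.part 137438953471 p0_13_0 p0_13_1))) p0_13_8)
theorem o0_12 : Ok2 par f12 Box3.unit C0 :=
  (Ok2.part 356811923176489970264571492362373784095686655 (Ok2.part 18889465931478580854783 (Ok2.part 137438953471 p0_12_6 p0_12_7) (Ok2.part 137438953471 p0_12_4 p0_12_5)) (Ok2.part 18889465931478580854783 (Ok2.part 137438953471 p0_12_2 p0_12_3) (Ok2.part 137438953471 p0_12_0 p0_12_1)))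
theorem o0_11 : Ok2 par f11 Box3.unit C0 :=
  (Ok2.part 1834004652810961744341083916325806884440888231454225894170955455637674067117542199001087 (Ok2.part 9903520314283042199192993791 (Ok2.part 70368744177663 p0_11_2 p0_11_3) (Ok2.part 140737488355327 p0_11_0 p0_11_1)) (Ok2.split 1 (Ok2.part 466416192418652404619744141279168 (Ok2.part 1099511627775 p0_11_4 p0_11_5) (Ok2.split 0 (Ok2.part 37730303 p0_11_13 (Ok2.split 1 p0_11_12 (Ok2.part 1 p0_11_11 (Ok2.split 0 (Ok2.part 31 p0_11_8 (Ok2.split 0 p0_11_6 p0_11_7)) (Ok2.part 13 p0_11_9 p0_11_10))))) (Ok2.part 266357760 p0_11_20 (Ok2.split 1 (Ok2.part 180181 p0_11_17 (Ok2.split 1 (Ok2.part 27 p0_11_14 p0_11_15) p0_11_16)) (Ok2.part 255807 p0_11_18 p0_11_19))))) (Ok2.part 131875276656699013208657634295871 p0_11_47 (Ok2.split 1 (Ok2.part 48281465121026462828651993 (Ok2.part 17179869183 p0_11_21 p0_11_22) (Ok2.split 0 (Ok2.part 94127 p0_11_25 (Ok2.split 0 p0_11_23 p0_11_24)) (Ok2.part 130128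 p0_11_28 (Ok2.split 1 p0_11_26 p0_11_27)))) (Ok2.part 33849923525675028403239428 p0_11_46 (Ok2.split 0 (Ok2.part 2147483647 p0_11_29 p0_11_30) (Ok2.part 8796093022208 p0_11_45 (Ok2.split 1 (Ok2.part 4575657221408415231 (Ok2.part 536870911 p0_11_31 p0_11_32) p0_11_33) (Ok2.part 2305843562657770783 p0_11_44 (Ok2.split 0 (Ok2.part 549755813879 p0_11_34 p0_11_35) (Ok2.part 8606973960 p0_11_43 (Ok2.split 1 (Ok2.part 34359738365 p0_11_40 (Ok2.split 0 p0_11_39 (Ok2.split 0 p0_11_38 (Ok2.split 1 p0_11_36 p0_11_37)))) (Ok2.part 34359738295 p0_11_41 p0_11_42)))))))))))))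
theorem o0_10 : Ok2 par f10 Box3.unit C0 :=
  (Ok2.part 127283665818629768726643144135076958763210496094696181432418749086075299892334499630940159 (Ok2.part 44601490397061246283071436545296723011960831 (Ok2.part 4722366482869645213695 (Ok2.part 68719476735 p0_10_6 p0_10_7) (Ok2.part 68719476735 p0_10_4 p0_10_5)) (Ok2.part 9444732965739290427391 (Ok2.part 68719476735 p0_10_2 p0_10_3) (Ok2.part 68719476735 p0_10_0 p0_10_1))) (Ok2.split 0 p0_10_8 p0_10_9))
theorem o0_9 : Ok2 par f9 Box3.unit C0 :=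
  (Ok2.part 356811923176489970264571492362373784095686655 (Ok2.part 18889465931478580854783 (Ok2.part 137438953471 p0_9_6 p0_9_7) (Ok2.part 137438953471 p0_9_4 p0_9_5)) (Ok2.part 18889465931478580854783 (Ok2.part 137438953471 p0_9_2 p0_9_3) (Ok2.part 137438953471 p0_9_0 p0_9_1)))
theorem o0_8 : Ok2 par f8 Box3.unit C0 :=
  (Ok2.part 127314748520905380391777855525586135065716774604118293405823410576928137730521198466433023 (Ok2.part 89202980794122492566142873090593446023921663 (Ok2.part 9444732965739290427391 (Ok2.part 68719476735 p0_8_6 p0_8_7) (Ok2.part 68719476735 p0_8_4 p0_8_5)) (Ok2.part 9444732965739290427391 (Ok2.part 68719476735 p0_8_2 p0_8_3) (Ok2.part 68719476735 p0_8_0 p0_8_1))) p0_8_8)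
theorem o0_7 : Ok2 par f7 Box3.unit C0 :=
  (Ok2.part 111400404948381514128166500737133708590062455954020712318351014553555750403872554125099007 (Ok2.part 22300745198530623141535718272648361505980415 (Ok2.part 4722366482869645213695 (Ok2.part 68719476735 p0_7_6 p0_7_7) (Ok2.part 68719476735 p0_7_4 p0_7_5)) (Ok2.part 4722366482869645213695 (Ok2.part 68719476735 p0_7_2 p0_7_3) (Ok2.part 68719476735 p0_7_0 p0_7_1))) (Ok2.split 1 p0_7_11 (Ok2.part 2 p0_7_10 (Ok2.split 0 p0_7_8 p0_7_9))))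
theorem o0_6 : Ok2 par f6 Box3.unit C0 :=
  (Ok2.part 127314748520905380391777855525586135065716774604121015664758778084648536087303364783636479 (Ok2.part 178405961588244985132285746181186892047843327 (Ok2.part 9444732965739290427391 (Ok2.part 68719476735 p0_6_6 p0_6_7) (Ok2.part 137438953471 p0_6_4 p0_6_5)) (Ok2.part 18889465931478580854783 (Ok2.part 137438953471 p0_6_2 p0_6_3) (Ok2.part 137438953471 p0_6_0 p0_6_1))) p0_6_8)
theorem o0_5 : Ok2 par f5 Box3.unit C0 :=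
  (Ok2.part 356811923176489970264571492362373784095686655 (Ok2.part 18889465931478580854783 (Ok2.part 137438953471 p0_5_6 p0_5_7) (Ok2.part 137438953471 p0_5_4 p0_5_5)) (Ok2.part 18889465931478580854783 (Ok2.part 137438953471 p0_5_2 p0_5_3) (Ok2.part 137438953471 p0_5_0 p0_5_1)))
theorem o0_4 : Ok2 par f4 Box3.unit C0 :=
  (Ok2.part 356811923176489970264571492362373784095686655 (Ok2.part 18889465931478580854783 (Ok2.part 137438953471 p0_4_6 p0_4_7) (Ok2.part 137438953471 p0_4_4 p0_4_5)) (Ok2.part 18889465931478580854783 (Ok2.part 137438953471 p0_4_2 p0_4_3) (Ok2.part 137438953471 p0_4_0 p0_4_1)))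
theorem o0_3 : Ok2 par f3 Box3.unit C0 :=
  (Ok2.part 127314748520905380391777855525554648412334141197141799654819026637783062155914500965924863 (Ok2.part 1393796574908163946345982392040522594123775 (Ok2.part 1180591620717411303423 (Ok2.part 34359738367 p0_3_6 p0_3_7) (Ok2.part 34359738367 p0_3_4 p0_3_5)) (Ok2.part 1180591620717411303423 (Ok2.part 34359738367 p0_3_2 p0_3_3) (Ok2.part 34359738367 p0_3_0 p0_3_1))) (Ok2.split 0 (Ok2.part 65534 p0_3_12 (Ok2.split 2 (Ok2.split 0 (Ok2.split 1 p0_3_8 p0_3_9) p0_3_10) p0_3_11)) p0_3_13))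
theorem o0_2 : Ok2 par f2 Box3.unit C0 :=
  (Ok2.part 127314748520905380391777855525586135065716774604121015664758778084633483544139217789517823 (Ok2.part 89202980794122492566142873090593446023921663 (Ok2.part 9444732965739290427391 (Ok2.part 68719476735 p0_2_6 p0_2_7) (Ok2.part 68719476735 p0_2_4 p0_2_5)) (Ok2.part 9444732965739290427391 (Ok2.part 68719476735 p0_2_2 p0_2_3) (Ok2.part 137438953471 p0_2_0 p0_2_1))) p0_2_8)
theorem o0_1 : Ok2 par f1 Box3.unit C0 :=
  (Ok2.part 61637852328564531995389391962290646260996280337402856815109266307120860566274210562834431 (Ok2.part 170141183460469231731687303715884105727 (Ok2.part 9223372036854775807 (Ok2.part 2147483647 p0_1_6 p0_1_7) (Ok2.part 4294967295 p0_1_4 p0_1_5)) (Ok2.part 18446744073709551615 (Ok2.part 4294967295 p0_1_2 p0_1_3) (Ok2.part 4294967295 p0_1_0 p0_1_1))) (Ok2.split 0 (Ok2.part 1649269539848 p0_1_19 (Ok2.split 2 (Ok2.part 68719279615 p0_1_8 p0_1_9) (Ok2.part 131653 p0_1_18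 (Ok2.split 0 (Ok2.part 2144328033 p0_1_14 (Ok2.split 2 p0_1_13 (Ok2.part 6 p0_1_12 (Ok2.split 0 p0_1_10 p0_1_11)))) (Ok2.part 792657919 p0_1_17 (Ok2.split 2 p0_1_15 p0_1_16)))))) (Ok2.part 1099511627775 p0_1_20 p0_1_21)))
theorem o0_0 : Ok2 par f0 Box3.unit C0 :=
  (Ok2.part 63626663202830679047489373338971061627653247762410966070713913106039136017157079391272959 (Ok2.part 174224571863520493293247799005065324265471 (Ok2.part 295147905179352825855 (Ok2.part 17179869183 p0_0_6 p0_0_7) (Ok2.part 17179869183 p0_0_4 p0_0_5)) (Ok2.part 295147905179352825855 (Ok2.part 17179869183 p0_0_2 p0_0_3) (Ok2.part 17179869183 p0_0_0 p0_0_1))) (Ok2.split 0 (Ok2.part 2101444 p0_0_10 (Ok2.split 0 p0_0_8 p0_0_9)) p0_0_11))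

theorem pt0 : PtAll2 par C0 :=
  PtAll2.of_okD hw (OkD2.cover [f0.dom,f1.dom,f2.dom,f3.dom,f4.dom,f5.dom,f6.dom,f7.dom,f8.dom,f9.dom,f10.dom,f11.dom,f12.dom,f13.dom,f14.dom,f15.dom,f16.dom,f17.dom,f18.dom,f19.dom]
    (.split 0 (.split 0 (.split 2 (.leaf 0) (.leaf 1)) (.split 2 (.split 1 (.leaf 2) (.leaf 3)) (.split 1 (.split 2 (.leaf 4) (.leaf 5)) (.split 2 (.leaf 6) (.split 0 (.leaf 7) (.leaf 8)))))) (.split 1 (.split 0 (.split 2 (.leaf 9) (.leaf 10)) (.leaf 11)) (.split 0 (.split 1 (.split 2 (.leaf 12) (.leaf 13)) (.split 2 (.leaf 14) (.leaf 15))) (.split 1 (.leaf 16) (.split 0 (.leaf 17) (.split 1 (.leaf 18) (.leaf 19)))))))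
    (by decide +kernel)
    (List.forall_mem_cons.2 ⟨OkD2.of_ok o0_0, (List.forall_mem_cons.2 ⟨OkD2.of_ok o0_1, (List.forall_mem_cons.2 ⟨OkD2.of_ok o0_2, (List.forall_mem_cons.2 ⟨OkD2.of_ok o0_3, (List.forall_mem_cons.2 ⟨OkD2.of_ok o0_4, (List.forall_mem_cons.2 ⟨OkD2.of_ok o0_5, (List.forall_mem_cons.2 ⟨OkD2.of_ok o0_6, (List.forall_mem_cons.2 ⟨OkD2.of_ok o0_7, (List.forall_mem_cons.2 ⟨OkD2.of_ok o0_8, (List.forall_mem_cons.2 ⟨OkD2.of_ok o0_9, (List.forall_mem_cons.2 ⟨OkD2.of_ok o0_10, (List.forall_mem_cons.2 ⟨OkD2.of_ok o0_11, (List.forall_mem_cons.2 ⟨OkD2.of_ok o0_12, (List.forall_mem_cons.2 ⟨OkD2.of_ok o0_13, (List.forall_mem_cons.2 ⟨OkD2.of_ok o0_14, (List.forall_mem_cons.2 ⟨OkD2.of_ok o0_15, (List.forall_mem_cons.2 ⟨OkD2.of_ok o0_16, (List.forall_mem_cons.2 ⟨OkD2.of_ok o0_17, (List.forall_mem_cons.2 ⟨OkD2.of_ok o0_18, (List.forall_mem_cons.2 ⟨OkD2.of_ok o0_19, (fun _ h => nomatch h)⟩)⟩)⟩)⟩)⟩)⟩)⟩)⟩)⟩)⟩)⟩)⟩)⟩)⟩)⟩)⟩)⟩)⟩)⟩)⟩))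

end Crest.Agent.R163.P7a
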