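import Crest.Agent.R163.Q3.D.P7a.S1
import Crest.Agent.R163.Q3.D.P7a.H

set_option autoImplicit false
set_option maxRecDepth 100000
set_option linter.all false
set_option Elab.async false

namespace Crest.Agent.R163.P7a

theorem p1_4_0 : Ok2 par f4 Box3.unit (selB2 1 (selB2 0 C1 77371252455336267181195263) 8796093022207) :=
  Ok2.run hw hf4 ⟨257,19,19,13,13⟩ 58
    (.chk false 0)
    (by decide +kernel)

theorem p1_4_1 : Ok2 par f4 Box3.unit (selB2 0 (selB2 0 C1 77371252455336267181195263) 8796093022207) :=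
  Ok2.run hw hf4 ⟨257,19,19,13,13⟩ 58
    (.chk false 0)
    (by decide +kernel)

theorem p1_4_2 : Ok2 par f4 Box3.unit (selB2 1 (selB2 1 C1 77371252455336267181195263) 8796093022207) :=
  Ok2.run hw hf4 ⟨257,19,19,13,13⟩ 58
    (.chk false 0)
    (by decide +kernel)

theorem p1_4_3 : Ok2 par f4 Box3.unit (selB2 0 (selB2 1 C1 77371252455336267181195263) 8796093022207) :=
  Ok2.run hw hf4 ⟨257,19,19,13,13⟩ 58
    (.chk false 0)
    (by decide +kernel)

theorem p1_5_0 : Ok2 par f5 Box3.unit (selB2 1 (selB2 0 C1 77371252455336267181195263) 8796093022207) :=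
  Ok2.run hw hf5 ⟨260,19,19,16,13⟩ 58
    (.chk false 0)
    (by decide +kernel)

theorem p1_5_1 : Ok2 par f5 Box3.unit (selB2 0 (selB2 0 C1 77371252455336267181195263) 8796093022207) :=
  Ok2.run hw hf5 ⟨260,19,19,16,13⟩ 58
    (.chk false 0)
    (by decide +kernel)

theorem p1_5_2 : Ok2 par f5 Box3.unit (selB2 1 (selB2 1 C1 77371252455336267181195263) 8796093022207) :=
  Ok2.run hw hf5 ⟨260,19,19,16,13⟩ 58
    (.chk false 0)
    (by decide +kernel)

theorem p1_5_3 : Ok2 par f5 Box3.unit (selB2 0 (selB2 1 C1 77371252455336267181195263) 8796093022207) :=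
  Ok2.run hw hf5 ⟨260,19,19,16,13⟩ 58
    (.chk false 0)
    (by decide +kernel)

theorem p1_6_0 : Ok2 par f6 Box3.unit (selB2 1 (selB2 0 C1 77371252455336267181195263) 8796093022207) :=
  Ok2.run hw hf6 ⟨257,19,19,13,13⟩ 58
    (.chk false 0)
    (by decide +kernel)

theorem p1_6_1 : Ok2 par f6 Box3.unit (selB2 0 (selB2 0 C1 77371252455336267181195263) 8796093022207) :=
  Ok2.run hw hf6 ⟨257,19,19,13,13⟩ 58
    (.chk false 0)
    (by decide +kernel)

theorem p1_6_2 : Ok2 par f6 Box3.unit (selB2 1 (selB2 1 C1 77371252455336267181195263) 8796093022207) :=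
  Ok2.run hw hf6 ⟨257,19,19,13,13⟩ 58
    (.chk false 0)
    (by decide +kernel)

theorem p1_6_3 : Ok2 par f6 Box3.unit (selB2 0 (selB2 1 C1 77371252455336267181195263) 8796093022207) :=
  Ok2.run hw hf6 ⟨257,19,19,13,13⟩ 58
    (.chk false 0)
    (by decide +kernel)

theorem p1_7_0 : Ok2 par f7 Box3.unit (selB2 1 (selB2 0 C1 77371252455336267181195263) 8796093022207) :=
  Ok2.run hw hf7 ⟨260,19,19,16,13⟩ 58
    (.chk false 0)
    (by decide +kernel)

theorem p1_7_1 : Ok2 par f7 Box3.unit (selB2 0 (selB2 0 C1 77371252455336267181195263) 8796093022207) :=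
  Ok2.run hw hf7 ⟨260,19,19,16,13⟩ 58
    (.chk false 0)
    (by decide +kernel)

theorem p1_7_2 : Ok2 par f7 Box3.unit (selB2 1 (selB2 1 C1 77371252455336267181195263) 8796093022207) :=
  Ok2.run hw hf7 ⟨260,19,19,16,13⟩ 58
    (.chk false 0)
    (by decide +kernel)

theorem p1_7_3 : Ok2 par f7 Box3.unit (selB2 0 (selB2 1 C1 77371252455336267181195263) 8796093022207) :=
  Ok2.run hw hf7 ⟨260,19,19,16,13⟩ 58
    (.chk false 0)
    (by decide +kernel)

theorem p1_8_0 : Ok2 par f8 Box3.unit (selB2 1 (selB2 0 C1 77371252455336267181195263) 8796093022207) :=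
  Ok2.run hw hf8 ⟨257,19,19,13,13⟩ 58
    (.chk false 0)
    (by decide +kernel)

theorem p1_8_1 : Ok2 par f8 Box3.unit (selB2 0 (selB2 0 C1 77371252455336267181195263) 8796093022207) :=
  Ok2.run hw hf8 ⟨257,19,19,13,13⟩ 58
    (.chk false 0)
    (by decide +kernel)

theorem p1_8_2 : Ok2 par f8 Box3.unit (selB2 1 (selB2 1 C1 77371252455336267181195263) 8796093022207) :=
  Ok2.run hw hf8 ⟨257,19,19,13,13⟩ 58
    (.chk false 0)
    (by decide +kernel)

theorem p1_8_3 : Ok2 par f8 Box3.unit (selB2 0 (selB2 1 C1 77371252455336267181195263) 8796093022207) :=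
  Ok2.run hw hf8 ⟨257,19,19,13,13⟩ 58
    (.chk false 0)
    (by decide +kernel)

theorem p1_9_0 : Ok2 par f9 Box3.unit (selB2 1 (selB2 0 (selB2 1 C1 8613890791149872568447923960922612643236249811812351) 2417851639229258349412351) 1099511627775) :=
  Ok2.run hw hf9 ⟨254,19,19,13,13⟩ 58
    (.chk false 0)
    (by decide +kernel)

theorem p1_9_1 : Ok2 par f9 Box3.unit (selB2 0 (selB2 0 (selB2 1 C1 8613890791149872568447923960922612643236249811812351) 2417851639229258349412351) 1099511627775) :=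
  Ok2.run hw hf9 ⟨254,19,19,13,13⟩ 58
    (.chk false 0)
    (by decide +kernel)

theorem p1_9_2 : Ok2 par f9 Box3.unit (selB2 1 (selB2 1 (selB2 1 C1 8613890791149872568447923960922612643236249811812351) 2417851639229258349412351) 1099511627775) :=
  Ok2.run hw hf9 ⟨254,19,19,13,13⟩ 58
    (.chk false 0)
    (by decide +kernel)

theorem p1_9_3 : Ok2 par f9 Box3.unit (selB2 0 (selB2 1 (selB2 1 C1 8613890791149872568447923960922612643236249811812351) 2417851639229258349412351) 1099511627775) :=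
  Ok2.run hw hf9 ⟨254,19,19,13,13⟩ 58
    (.chk false 0)
    (by decide +kernel)

theorem p1_9_4 : Ok2 par f9 (((((Box3.unit.l 1).r 1).r 0).r 0).l 1) (selB2 0 (selB2 0 (selB2 0 C1 8613890791149872568447923960922612643236249811812351) 1025) 191) :=
  Ok2.run hw hf9 ⟨452,19,19,13,13⟩ 58
    (.part 2 (.chk false 0) (.split 2 (.split 0 (.split 2 (.split 1 (.split 0 (.chk false 0) (.chk false 0)) (.chk false 0)) (.chk false 0)) (.chk false 0)) (.chk false 0)))
    (by decide +kernel)

theorem p1_9_5 : Ok2 par f9 (((((Box3.unit.l 1).r 1).r 0).r 0).r 1) (selB2 0 (selB2 0 (selB2 0 C1 8613890791149872568447923960922612643236249811812351) 1025) 191) :=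
  Ok2.run hw hf9 ⟨361,19,19,13,13⟩ 58
    (.chk false 0)
    (by decide +kernel)

theorem p1_9_6 : Ok2 par f9 ((((Box3.unit.l 1).r 1).r 0).l 0) (selB2 0 (selB2 0 (selB2 0 C1 8613890791149872568447923960922612643236249811812351) 1025) 191) :=
  Ok2.run hw hf9 ⟨337,19,19,13,13⟩ 58
    (.chk false 0)
    (by decide +kernel)

theorem p1_9_7 : Ok2 par f9 (((Box3.unit.l 1).r 1).l 0) (selB2 0 (selB2 0 (selB2 0 C1 8613890791149872568447923960922612643236249811812351) 1025) 191) :=
  Ok2.run hw hf9 ⟨324,19,19,13,13⟩ 58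
    (.chk false 0)
    (by decide +kernel)

theorem p1_9_8 : Ok2 par f9 ((Box3.unit.l 1).r 1) (selB2 1 (selB2 0 (selB2 0 C1 8613890791149872568447923960922612643236249811812351) 1025) 191) :=
  Ok2.run hw hf9 ⟨296,19,19,13,13⟩ 58
    (.chk false 0)
    (by decide +kernel)

theorem p1_9_9 : Ok2 par f9 ((Box3.unit.l 1).l 1) (selB2 0 (selB2 0 C1 8613890791149872568447923960922612643236249811812351) 1025) :=
  Ok2.run hw hf9 ⟨355,19,19,13,13⟩ 58
    (.part 416 (.chk false 0) (.split 0 (.chk false 0) (.part 19 (.chk false 0) (.split 0 (.chk false 0) (.chk false 0)))))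
    (by decide +kernel)

theorem p1_9_10 : Ok2 par f9 (Box3.unit.l 1) (selB2 1 (selB2 0 C1 8613890791149872568447923960922612643236249811812351) 1025) :=
  Ok2.run hw hf9 ⟨282,19,19,13,13⟩ 58
    (.chk false 0)
    (by decide +kernel)

theorem p1_9_11 : Ok2 par f9 (Box3.unit.r 1) (selB2 0 C1 8613890791149872568447923960922612643236249811812351) :=
  Ok2.run hw hf9 ⟨282,19,19,13,13⟩ 58
    (.chk false 0)
    (by decide +kernel)

theorem p1_10_0 : Ok2 par f10 Box3.unit (selB2 1 (selB2 0 (selB2 1 C1 7115092135919622768571110974274964451408426081189887) 302231454903657293676543) 549755813887) :=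
  Ok2.run hw hf10 ⟨257,19,19,16,13⟩ 58
    (.chk false 0)
    (by decide +kernel)


end Crest.Agent.R163.P7a
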