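import Crest.Agent.R163.Q3.D.P7a.S1
import Crest.Agent.R163.Q3.D.P7a.H

set_option autoImplicit false
set_option maxRecDepth 100000
set_option linter.all false
set_option Elab.async false

namespace Crest.Agent.R163.P7a

theorem p1_10_1 : Ok2 par f10 Box3.unit (selB2 0 (selB2 0 (selB2 1 C1 7115092135919622768571110974274964451408426081189887) 302231454903657293676543) 549755813887) :=
  Ok2.run hw hf10 ⟨257,19,19,16,13⟩ 58
    (.chk false 0)
    (by decide +kernel)

theorem p1_10_2 : Ok2 par f10 Box3.unit (selB2 1 (selB2 1 (selB2 1 C1 7115092135919622768571110974274964451408426081189887) 302231454903657293676543) 549755813887) :=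
  Ok2.run hw hf10 ⟨257,19,19,16,13⟩ 58
    (.chk false 0)
    (by decide +kernel)

theorem p1_10_3 : Ok2 par f10 Box3.unit (selB2 0 (selB2 1 (selB2 1 C1 7115092135919622768571110974274964451408426081189887) 302231454903657293676543) 549755813887) :=
  Ok2.run hw hf10 ⟨257,19,19,16,13⟩ 58
    (.chk false 0)
    (by decide +kernel)

theorem p1_10_4 : Ok2 par f10 ((Box3.unit.l 1).l 1) (selB2 1 (selB2 0 (selB2 0 C1 7115092135919622768571110974274964451408426081189887) 65166) 24) :=
  Ok2.run hw hf10 ⟨307,19,19,16,13⟩ 58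
    (.chk false 0)
    (by decide +kernel)

theorem p1_10_5 : Ok2 par f10 ((Box3.unit.l 1).l 1) (selB2 0 (selB2 0 (selB2 0 C1 7115092135919622768571110974274964451408426081189887) 65166) 24) :=
  Ok2.run hw hf10 ⟨374,19,19,16,13⟩ 58
    (.split 0 (.chk false 0) (.part 1 (.chk false 0) (.split 1 (.chk false 0) (.part 1 (.chk false 0) (.split 0 (.chk false 0) (.chk false 0))))))
    (by decide +kernel)

theorem p1_10_6 : Ok2 par f10 ((((((((Box3.unit.l 1).r 1).r 0).l 1).r 0).r 1).r 0).l 1) (selB2 0 (selB2 0 (selB2 0 (selB2 0 (selB2 0 C1 7115092135919622768571110974274964451408426081189887) 65166) 3) 2) 1) :=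
  Ok2.run hw hf10 ⟨500,19,19,16,13⟩ 58
    (.split 0 (.split 1 (.chk false 0) (.split 2 (.chk false 0) (.split 0 (.chk false 0) (.chk false 0)))) (.chk false 0))
    (by decide +kernel)

theorem p1_10_7 : Ok2 par f10 ((((((((Box3.unit.l 1).r 1).r 0).l 1).r 0).r 1).r 0).r 1) (selB2 0 (selB2 0 (selB2 0 (selB2 0 (selB2 0 C1 7115092135919622768571110974274964451408426081189887) 65166) 3) 2) 1) :=
  Ok2.run hw hf10 ⟨442,19,19,16,13⟩ 58
    (.split 0 (.chk false 0) (.chk false 0))
    (by decide +kernel)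

theorem p1_10_8 : Ok2 par f10 (((((((Box3.unit.l 1).r 1).r 0).l 1).r 0).r 1).l 0) (selB2 0 (selB2 0 (selB2 0 (selB2 0 (selB2 0 C1 7115092135919622768571110974274964451408426081189887) 65166) 3) 2) 1) :=
  Ok2.run hw hf10 ⟨402,19,19,16,13⟩ 58
    (.chk false 0)
    (by decide +kernel)

theorem p1_10_9 : Ok2 par f10 ((((((Box3.unit.l 1).r 1).r 0).l 1).r 0).l 1) (selB2 0 (selB2 0 (selB2 0 (selB2 0 (selB2 0 C1 7115092135919622768571110974274964451408426081189887) 65166) 3) 2) 1) :=
  Ok2.run hw hf10 ⟨389,19,19,16,13⟩ 58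
    (.chk false 0)
    (by decide +kernel)

theorem p1_10_10 : Ok2 par f10 (((((Box3.unit.l 1).r 1).r 0).l 1).r 0) (selB2 1 (selB2 0 (selB2 0 (selB2 0 (selB2 0 C1 7115092135919622768571110974274964451408426081189887) 65166) 3) 2) 1) :=
  Ok2.run hw hf10 ⟨370,19,19,16,13⟩ 58
    (.chk false 0)
    (by decide +kernel)

theorem p1_10_11 : Ok2 par f10 (((((Box3.unit.l 1).r 1).r 0).l 1).l 0) (selB2 0 (selB2 0 (selB2 0 (selB2 0 C1 7115092135919622768571110974274964451408426081189887) 65166) 3) 2) :=
  Ok2.run hw hf10 ⟨361,19,19,16,13⟩ 58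
    (.chk false 0)
    (by decide +kernel)

theorem p1_10_12 : Ok2 par f10 ((((Box3.unit.l 1).r 1).r 0).l 1) (selB2 1 (selB2 0 (selB2 0 (selB2 0 C1 7115092135919622768571110974274964451408426081189887) 65166) 3) 2) :=
  Ok2.run hw hf10 ⟨348,19,19,16,13⟩ 58
    (.chk false 0)
    (by decide +kernel)

theorem p1_10_13 : Ok2 par f10 ((((Box3.unit.l 1).r 1).r 0).r 1) (selB2 0 (selB2 0 (selB2 0 C1 7115092135919622768571110974274964451408426081189887) 65166) 3) :=
  Ok2.run hw hf10 ⟨342,19,19,16,13⟩ 58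
    (.chk false 0)
    (by decide +kernel)

theorem p1_10_14 : Ok2 par f10 (((Box3.unit.l 1).r 1).l 0) (selB2 0 (selB2 0 (selB2 0 C1 7115092135919622768571110974274964451408426081189887) 65166) 3) :=
  Ok2.run hw hf10 ⟨327,19,19,16,13⟩ 58
    (.chk false 0)
    (by decide +kernel)

theorem p1_10_15 : Ok2 par f10 ((Box3.unit.l 1).r 1) (selB2 1 (selB2 0 (selB2 0 C1 7115092135919622768571110974274964451408426081189887) 65166) 3) :=
  Ok2.run hw hf10 ⟨299,19,19,16,13⟩ 58
    (.chk false 0)
    (by decide +kernel)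

theorem p1_10_16 : Ok2 par f10 (Box3.unit.l 1) (selB2 1 (selB2 0 C1 7115092135919622768571110974274964451408426081189887) 65166) :=
  Ok2.run hw hf10 ⟨285,19,19,16,13⟩ 58
    (.chk false 0)
    (by decide +kernel)

theorem p1_10_17 : Ok2 par f10 (Box3.unit.r 1) (selB2 0 C1 7115092135919622768571110974274964451408426081189887) :=
  Ok2.run hw hf10 ⟨307,19,19,16,13⟩ 58
    (.part 57211 (.chk false 0) (.split 1 (.chk false 0) (.chk false 0)))
    (by decide +kernel)

theorem p1_11_0 : Ok2 par f11 (Box3.unit.l 1) (selB2 1 (selB2 0 (selB2 1 (selB2 0 C1 5986409208923590739560607441593776447388762247331905) 2792186961769760561868440111072315208335359) 9223372036854775807) 2147483647) :=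
  Ok2.run hw hf11 ⟨281,19,19,13,13⟩ 58
    (.chk false 0)
    (by decide +kernel)

theorem p1_11_1 : Ok2 par f11 (Box3.unit.l 1) (selB2 0 (selB2 0 (selB2 1 (selB2 0 C1 5986409208923590739560607441593776447388762247331905) 2792186961769760561868440111072315208335359) 9223372036854775807) 2147483647) :=
  Ok2.run hw hf11 ⟨281,19,19,13,13⟩ 58
    (.chk false 0)
    (by decide +kernel)

theorem p1_11_2 : Ok2 par f11 (Box3.unit.l 1) (selB2 1 (selB2 1 (selB2 1 (selB2 0 C1 5986409208923590739560607441593776447388762247331905) 2792186961769760561868440111072315208335359) 9223372036854775807) 2147483647) :=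
  Ok2.run hw hf11 ⟨281,19,19,13,13⟩ 58
    (.chk false 0)
    (by decide +kernel)

theorem p1_11_3 : Ok2 par f11 (Box3.unit.l 1) (selB2 0 (selB2 1 (selB2 1 (selB2 0 C1 5986409208923590739560607441593776447388762247331905) 2792186961769760561868440111072315208335359) 9223372036854775807) 2147483647) :=
  Ok2.run hw hf11 ⟨281,19,19,13,13⟩ 58
    (.chk false 0)
    (by decide +kernel)

theorem p1_11_4 : Ok2 par f11 (((Box3.unit.l 1).l 1).l 1) (selB2 0 (selB2 0 (selB2 0 C1 5986409208923590739560607441593776447388762247331905) 2792186961769760561868440111072315208335359) 523147) :=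
  Ok2.run hw hf11 ⟨373,19,19,13,13⟩ 58
    (.part 25 (.chk false 0) (.split 0 (.part 2 (.chk false 0) (.split 0 (.chk false 0) (.chk false 0))) (.part 1 (.chk false 0) (.split 1 (.chk false 0) (.chk false 0)))))
    (by decide +kernel)

theorem p1_11_5 : Ok2 par f11 (((Box3.unit.l 1).l 1).r 1) (selB2 0 (selB2 0 (selB2 0 C1 5986409208923590739560607441593776447388762247331905) 2792186961769760561868440111072315208335359) 523147) :=
  Ok2.run hw hf11 ⟨366,19,19,13,13⟩ 58
    (.part 4 (.chk false 0) (.split 0 (.chk false 0) (.part 3 (.chk false 0) (.split 1 (.chk false 0) (.chk false 0)))))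
    (by decide +kernel)

theorem p1_11_6 : Ok2 par f11 ((Box3.unit.l 1).l 1) (selB2 1 (selB2 0 (selB2 0 C1 5986409208923590739560607441593776447388762247331905) 2792186961769760561868440111072315208335359) 523147) :=
  Ok2.run hw hf11 ⟨303,19,19,13,13⟩ 58
    (.chk false 0)
    (by decide +kernel)

theorem p1_11_7 : Ok2 par f11 (((((Box3.unit.l 1).r 1).l 0).l 1).l 0) (selB2 0 (selB2 0 (selB2 0 (selB2 0 (selB2 0 C1 5986409208923590739560607441593776447388762247331905) 2792186961769760561868440111072315208335359) 1632) 6224) 1851) :=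
  Ok2.run hw hf11 ⟨433,19,19,13,13⟩ 58
    (.part 3 (.chk false 0) (.split 2 (.chk false 0) (.split 1 (.chk false 0) (.split 2 (.chk false 0) (.split 0 (.chk false 0) (.chk false 0))))))
    (by decide +kernel)

theorem p1_11_8 : Ok2 par f11 (((((Box3.unit.l 1).r 1).l 0).l 1).r 0) (selB2 0 (selB2 0 (selB2 0 (selB2 0 (selB2 0 C1 5986409208923590739560607441593776447388762247331905) 2792186961769760561868440111072315208335359) 1632) 6224) 1851) :=
  Ok2.run hw hf11 ⟨375,19,19,13,13⟩ 58
    (.part 5 (.chk false 0) (.split 1 (.chk false 0) (.chk false 0)))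
    (by decide +kernel)

theorem p1_11_9 : Ok2 par f11 ((((Box3.unit.l 1).r 1).l 0).l 1) (selB2 1 (selB2 0 (selB2 0 (selB2 0 (selB2 0 C1 5986409208923590739560607441593776447388762247331905) 2792186961769760561868440111072315208335359) 1632) 6224) 1851) :=
  Ok2.run hw hf11 ⟨343,19,19,13,13⟩ 58
    (.chk false 0)
    (by decide +kernel)

theorem p1_11_10 : Ok2 par f11 ((((((Box3.unit.l 1).r 1).l 0).r 1).r 0).l 2) (selB2 1 (selB2 0 (selB2 0 (selB2 0 (selB2 0 (selB2 0 (selB2 0 C1 5986409208923590739560607441593776447388762247331905) 2792186961769760561868440111072315208335359) 1632) 6224) 240) 79) 1) :=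
  Ok2.run hw hf11 ⟨368,19,19,13,13⟩ 58
    (.chk false 0)
    (by decide +kernel)

theorem p1_11_11 : Ok2 par f11 ((((((Box3.unit.l 1).r 1).l 0).r 1).r 0).l 2) (selB2 0 (selB2 0 (selB2 0 (selB2 0 (selB2 0 (selB2 0 (selB2 0 C1 5986409208923590739560607441593776447388762247331905) 2792186961769760561868440111072315208335359) 1632) 6224) 240) 79) 1) :=
  Ok2.run hw hf11 ⟨464,19,19,13,13⟩ 58
    (.split 1 (.chk false 0) (.split 2 (.split 0 (.chk false 0) (.split 1 (.chk false 0) (.split 2 (.split 0 (.chk false 0) (.chk false 0)) (.chk false 0)))) (.chk false 0)))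
    (by decide +kernel)

theorem p1_11_12 : Ok2 par f11 ((((((Box3.unit.l 1).r 1).l 0).r 1).r 0).r 2) (selB2 0 (selB2 0 (selB2 0 (selB2 0 (selB2 0 (selB2 0 C1 5986409208923590739560607441593776447388762247331905) 2792186961769760561868440111072315208335359) 1632) 6224) 240) 79) :=
  Ok2.run hw hf11 ⟨388,19,19,13,13⟩ 58
    (.part 2 (.chk false 0) (.split 1 (.chk false 0) (.chk false 0)))
    (by decide +kernel)

theorem p1_11_13 : Ok2 par f11 (((((Box3.unit.l 1).r 1).l 0).r 1).r 0) (selB2 1 (selB2 0 (selB2 0 (selB2 0 (selB2 0 (selB2 0 C1 5986409208923590739560607441593776447388762247331905) 2792186961769760561868440111072315208335359) 1632) 6224) 240) 79) :=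
  Ok2.run hw hf11 ⟨351,19,19,13,13⟩ 58
    (.chk false 0)
    (by decide +kernel)

theorem p1_11_14 : Ok2 par f11 (((((Box3.unit.l 1).r 1).l 0).r 1).l 0) (selB2 0 (selB2 0 (selB2 0 (selB2 0 (selB2 0 C1 5986409208923590739560607441593776447388762247331905) 2792186961769760561868440111072315208335359) 1632) 6224) 240) :=
  Ok2.run hw hf11 ⟨396,19,19,13,13⟩ 58
    (.part 63 (.chk false 0) (.split 2 (.split 1 (.chk false 0) (.chk false 0)) (.chk false 0)))
    (by decide +kernel)

theorem p1_11_15 : Ok2 par f11 ((((Box3.unit.l 1).r 1).l 0).r 1) (selB2 1 (selB2 0 (selB2 0 (selB2 0 (selB2 0 C1 5986409208923590739560607441593776447388762247331905) 2792186961769760561868440111072315208335359) 1632) 6224) 240) :=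
  Ok2.run hw hf11 ⟨338,19,19,13,13⟩ 58
    (.chk false 0)
    (by decide +kernel)


end Crest.Agent.R163.P7a
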