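import Crest.Agent.R163.Q3.D.P7a.S1
import Crest.Agent.R163.Q3.D.P7a.H

set_option autoImplicit false
set_option maxRecDepth 100000
set_option linter.all false
set_option Elab.async false

namespace Crest.Agent.R163.P7a

theorem p1_11_16 : Ok2 par f11 (((Box3.unit.l 1).r 1).l 0) (selB2 1 (selB2 0 (selB2 0 (selB2 0 C1 5986409208923590739560607441593776447388762247331905) 2792186961769760561868440111072315208335359) 1632) 6224) :=
  Ok2.run hw hf11 ⟨322,19,19,13,13⟩ 58
    (.chk false 0)
    (by decide +kernel)

theorem p1_11_17 : Ok2 par f11 (((Box3.unit.l 1).r 1).r 0) (selB2 1 (selB2 0 (selB2 0 (selB2 0 C1 5986409208923590739560607441593776447388762247331905) 2792186961769760561868440111072315208335359) 1632) 27231) :=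
  Ok2.run hw hf11 ⟨322,19,19,13,13⟩ 58
    (.chk false 0)
    (by decide +kernel)

theorem p1_11_18 : Ok2 par f11 (((Box3.unit.l 1).r 1).r 0) (selB2 0 (selB2 0 (selB2 0 (selB2 0 C1 5986409208923590739560607441593776447388762247331905) 2792186961769760561868440111072315208335359) 1632) 27231) :=
  Ok2.run hw hf11 ⟨362,19,19,13,13⟩ 58
    (.split 1 (.part 26 (.chk false 0) (.split 1 (.chk false 0) (.chk false 0))) (.part 23 (.chk false 0) (.split 1 (.chk false 0) (.chk false 0))))
    (by decide +kernel)

theorem p1_11_19 : Ok2 par f11 ((Box3.unit.l 1).r 1) (selB2 1 (selB2 0 (selB2 0 C1 5986409208923590739560607441593776447388762247331905) 2792186961769760561868440111072315208335359) 1632) :=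
  Ok2.run hw hf11 ⟨294,19,19,13,13⟩ 58
    (.chk false 0)
    (by decide +kernel)

theorem p1_11_20 : Ok2 par f11 ((Box3.unit.r 1).l 1) (selB2 1 (selB2 1 (selB2 0 (selB2 0 C1 5986409208923590739560607441593776447388762247331905) 6955201441276671391318214548045092052025344) 664695127530845094378417501891444735) 562949953421311) :=
  Ok2.run hw hf11 ⟨294,19,19,13,13⟩ 58
    (.chk false 0)
    (by decide +kernel)

theorem p1_11_21 : Ok2 par f11 ((Box3.unit.r 1).l 1) (selB2 0 (selB2 1 (selB2 0 (selB2 0 C1 5986409208923590739560607441593776447388762247331905) 6955201441276671391318214548045092052025344) 664695127530845094378417501891444735) 562949953421311) :=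
  Ok2.run hw hf11 ⟨294,19,19,13,13⟩ 58
    (.chk false 0)
    (by decide +kernel)

theorem p1_11_22 : Ok2 par f11 ((((((Box3.unit.r 1).l 1).l 0).l 1).l 0).l 1) (selB2 0 (selB2 0 (selB2 0 (selB2 0 (selB2 0 (selB2 0 C1 5986409208923590739560607441593776447388762247331905) 6955201441276671391318214548045092052025344) 664695127530845094378417501891444735) 19011060) 3800) 303) :=
  Ok2.run hw hf11 ⟨376,19,19,13,13⟩ 58
    (.chk false 0)
    (by decide +kernel)

theorem p1_11_23 : Ok2 par f11 ((((((Box3.unit.r 1).l 1).l 0).l 1).l 0).r 1) (selB2 0 (selB2 0 (selB2 0 (selB2 0 (selB2 0 (selB2 0 C1 5986409208923590739560607441593776447388762247331905) 6955201441276671391318214548045092052025344) 664695127530845094378417501891444735) 19011060) 3800) 303) :=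
  Ok2.run hw hf11 ⟨464,19,19,13,13⟩ 58
    (.part 6 (.chk false 0) (.split 2 (.split 0 (.chk false 0) (.split 1 (.chk false 0) (.split 2 (.split 0 (.chk false 0) (.chk false 0)) (.chk false 0)))) (.chk false 0)))
    (by decide +kernel)

theorem p1_11_24 : Ok2 par f11 (((((Box3.unit.r 1).l 1).l 0).l 1).l 0) (selB2 1 (selB2 0 (selB2 0 (selB2 0 (selB2 0 (selB2 0 C1 5986409208923590739560607441593776447388762247331905) 6955201441276671391318214548045092052025344) 664695127530845094378417501891444735) 19011060) 3800) 303) :=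
  Ok2.run hw hf11 ⟨360,19,19,13,13⟩ 58
    (.chk false 0)
    (by decide +kernel)

theorem p1_11_25 : Ok2 par f11 (((((Box3.unit.r 1).l 1).l 0).l 1).r 0) (selB2 1 (selB2 0 (selB2 0 (selB2 0 (selB2 0 (selB2 0 C1 5986409208923590739560607441593776447388762247331905) 6955201441276671391318214548045092052025344) 664695127530845094378417501891444735) 19011060) 3800) 351) :=
  Ok2.run hw hf11 ⟨351,19,19,13,13⟩ 58
    (.chk false 0)
    (by decide +kernel)

theorem p1_11_26 : Ok2 par f11 (((((Box3.unit.r 1).l 1).l 0).l 1).r 0) (selB2 0 (selB2 0 (selB2 0 (selB2 0 (selB2 0 (selB2 0 C1 5986409208923590739560607441593776447388762247331905) 6955201441276671391318214548045092052025344) 664695127530845094378417501891444735) 19011060) 3800) 351) :=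
  Ok2.run hw hf11 ⟨406,19,19,13,13⟩ 58
    (.split 1 (.part 2 (.chk false 0) (.split 0 (.chk false 0) (.chk false 0))) (.part 1 (.chk false 0) (.split 2 (.chk false 0) (.split 1 (.chk false 0) (.chk false 0)))))
    (by decide +kernel)

theorem p1_11_27 : Ok2 par f11 ((((Box3.unit.r 1).l 1).l 0).l 1) (selB2 1 (selB2 0 (selB2 0 (selB2 0 (selB2 0 C1 5986409208923590739560607441593776447388762247331905) 6955201441276671391318214548045092052025344) 664695127530845094378417501891444735) 19011060) 3800) :=
  Ok2.run hw hf11 ⟨338,19,19,13,13⟩ 58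
    (.chk false 0)
    (by decide +kernel)

theorem p1_11_28 : Ok2 par f11 ((((((Box3.unit.r 1).l 1).l 0).r 1).l 0).l 1) (selB2 0 (selB2 0 (selB2 0 (selB2 0 (selB2 0 (selB2 0 C1 5986409208923590739560607441593776447388762247331905) 6955201441276671391318214548045092052025344) 664695127530845094378417501891444735) 19011060) 61511) 219) :=
  Ok2.run hw hf11 ⟨382,19,19,13,13⟩ 58
    (.chk false 0)
    (by decide +kernel)

theorem p1_11_29 : Ok2 par f11 ((((((Box3.unit.r 1).l 1).l 0).r 1).l 0).r 1) (selB2 0 (selB2 0 (selB2 0 (selB2 0 (selB2 0 (selB2 0 C1 5986409208923590739560607441593776447388762247331905) 6955201441276671391318214548045092052025344) 664695127530845094378417501891444735) 19011060) 61511) 219) :=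
  Ok2.run hw hf11 ⟨469,19,19,13,13⟩ 58
    (.part 2 (.chk false 0) (.split 2 (.chk false 0) (.split 0 (.chk false 0) (.split 1 (.chk false 0) (.split 2 (.chk false 0) (.split 0 (.chk false 0) (.chk false 0)))))))
    (by decide +kernel)

theorem p1_11_30 : Ok2 par f11 (((((Box3.unit.r 1).l 1).l 0).r 1).l 0) (selB2 1 (selB2 0 (selB2 0 (selB2 0 (selB2 0 (selB2 0 C1 5986409208923590739560607441593776447388762247331905) 6955201441276671391318214548045092052025344) 664695127530845094378417501891444735) 19011060) 61511) 219) :=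
  Ok2.run hw hf11 ⟨365,19,19,13,13⟩ 58
    (.chk false 0)
    (by decide +kernel)

theorem p1_11_31 : Ok2 par f11 ((((((((Box3.unit.r 1).l 1).l 0).r 1).r 0).l 1).r 2).l 1) (selB2 0 (selB2 0 (selB2 0 (selB2 0 (selB2 0 (selB2 0 (selB2 0 (selB2 0 C1 5986409208923590739560607441593776447388762247331905) 6955201441276671391318214548045092052025344) 664695127530845094378417501891444735) 19011060) 61511) 144) 27) 1) :=
  Ok2.run hw hf11 ⟨475,19,19,13,13⟩ 58
    (.split 0 (.chk false 0) (.split 2 (.chk false 0) (.split 1 (.chk false 0) (.split 0 (.chk false 0) (.chk false 0)))))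
    (by decide +kernel)

theorem p1_11_32 : Ok2 par f11 ((((((((Box3.unit.r 1).l 1).l 0).r 1).r 0).l 1).r 2).r 1) (selB2 0 (selB2 0 (selB2 0 (selB2 0 (selB2 0 (selB2 0 (selB2 0 (selB2 0 C1 5986409208923590739560607441593776447388762247331905) 6955201441276671391318214548045092052025344) 664695127530845094378417501891444735) 19011060) 61511) 144) 27) 1) :=
  Ok2.run hw hf11 ⟨475,19,19,13,13⟩ 58
    (.split 0 (.chk false 0) (.split 2 (.chk false 0) (.split 1 (.split 0 (.chk false 0) (.chk false 0)) (.chk false 0))))
    (by decide +kernel)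

theorem p1_11_33 : Ok2 par f11 (((((((Box3.unit.r 1).l 1).l 0).r 1).r 0).l 1).r 2) (selB2 1 (selB2 0 (selB2 0 (selB2 0 (selB2 0 (selB2 0 (selB2 0 (selB2 0 C1 5986409208923590739560607441593776447388762247331905) 6955201441276671391318214548045092052025344) 664695127530845094378417501891444735) 19011060) 61511) 144) 27) 1) :=
  Ok2.run hw hf11 ⟨390,19,19,13,13⟩ 58
    (.chk false 0)
    (by decide +kernel)

theorem p1_11_34 : Ok2 par f11 (((((((Box3.unit.r 1).l 1).l 0).r 1).r 0).l 1).l 2) (selB2 0 (selB2 0 (selB2 0 (selB2 0 (selB2 0 (selB2 0 (selB2 0 C1 5986409208923590739560607441593776447388762247331905) 6955201441276671391318214548045092052025344) 664695127530845094378417501891444735) 19011060) 61511) 144) 27) :=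
  Ok2.run hw hf11 ⟨411,19,19,13,13⟩ 58
    (.part 2 (.chk false 0) (.split 0 (.chk false 0) (.chk false 0)))
    (by decide +kernel)

theorem p1_11_35 : Ok2 par f11 ((((((Box3.unit.r 1).l 1).l 0).r 1).r 0).l 1) (selB2 1 (selB2 0 (selB2 0 (selB2 0 (selB2 0 (selB2 0 (selB2 0 C1 5986409208923590739560607441593776447388762247331905) 6955201441276671391318214548045092052025344) 664695127530845094378417501891444735) 19011060) 61511) 144) 27) :=
  Ok2.run hw hf11 ⟨373,19,19,13,13⟩ 58
    (.chk false 0)
    (by decide +kernel)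

theorem p1_11_36 : Ok2 par f11 ((((((Box3.unit.r 1).l 1).l 0).r 1).r 0).r 1) (selB2 0 (selB2 0 (selB2 0 (selB2 0 (selB2 0 (selB2 0 C1 5986409208923590739560607441593776447388762247331905) 6955201441276671391318214548045092052025344) 664695127530845094378417501891444735) 19011060) 61511) 144) :=
  Ok2.run hw hf11 ⟨413,19,19,13,13⟩ 58
    (.part 38 (.chk false 0) (.split 2 (.part 5 (.chk false 0) (.split 0 (.chk false 0) (.chk false 0))) (.part 2 (.chk false 0) (.split 0 (.chk false 0) (.chk false 0)))))
    (by decide +kernel)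

theorem p1_11_37 : Ok2 par f11 (((((Box3.unit.r 1).l 1).l 0).r 1).r 0) (selB2 1 (selB2 0 (selB2 0 (selB2 0 (selB2 0 (selB2 0 C1 5986409208923590739560607441593776447388762247331905) 6955201441276671391318214548045092052025344) 664695127530845094378417501891444735) 19011060) 61511) 144) :=
  Ok2.run hw hf11 ⟨356,19,19,13,13⟩ 58
    (.chk false 0)
    (by decide +kernel)

theorem p1_11_38 : Ok2 par f11 ((((Box3.unit.r 1).l 1).l 0).r 1) (selB2 1 (selB2 0 (selB2 0 (selB2 0 (selB2 0 C1 5986409208923590739560607441593776447388762247331905) 6955201441276671391318214548045092052025344) 664695127530845094378417501891444735) 19011060) 61511) :=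
  Ok2.run hw hf11 ⟨343,19,19,13,13⟩ 58
    (.chk false 0)
    (by decide +kernel)

theorem p1_11_39 : Ok2 par f11 (((Box3.unit.r 1).l 1).l 0) (selB2 1 (selB2 0 (selB2 0 (selB2 0 C1 5986409208923590739560607441593776447388762247331905) 6955201441276671391318214548045092052025344) 664695127530845094378417501891444735) 19011060) :=
  Ok2.run hw hf11 ⟨322,19,19,13,13⟩ 58
    (.chk false 0)
    (by decide +kernel)

theorem p1_11_40 : Ok2 par f11 (((((Box3.unit.r 1).l 1).r 0).r 1).l 1) (selB2 0 (selB2 0 (selB2 0 (selB2 0 (selB2 0 C1 5986409208923590739560607441593776447388762247331905) 6955201441276671391318214548045092052025344) 664695127530845094378417501891444735) 113361375) 3570) :=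
  Ok2.run hw hf11 ⟨392,19,19,13,13⟩ 58
    (.part 3 (.chk false 0) (.split 0 (.part 1 (.chk false 0) (.split 1 (.chk false 0) (.chk false 0))) (.chk false 0)))
    (by decide +kernel)

theorem p1_11_41 : Ok2 par f11 (((((Box3.unit.r 1).l 1).r 0).r 1).r 1) (selB2 0 (selB2 0 (selB2 0 (selB2 0 (selB2 0 C1 5986409208923590739560607441593776447388762247331905) 6955201441276671391318214548045092052025344) 664695127530845094378417501891444735) 113361375) 3570) :=
  Ok2.run hw hf11 ⟨414,19,19,13,13⟩ 58
    (.part 13 (.chk false 0) (.split 0 (.split 1 (.chk false 0) (.split 0 (.chk false 0) (.chk false 0))) (.chk false 0)))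
    (by decide +kernel)

theorem p1_11_42 : Ok2 par f11 ((((Box3.unit.r 1).l 1).r 0).r 1) (selB2 1 (selB2 0 (selB2 0 (selB2 0 (selB2 0 C1 5986409208923590739560607441593776447388762247331905) 6955201441276671391318214548045092052025344) 664695127530845094378417501891444735) 113361375) 3570) :=
  Ok2.run hw hf11 ⟨343,19,19,13,13⟩ 58
    (.chk false 0)
    (by decide +kernel)

theorem p1_11_43 : Ok2 par f11 ((((Box3.unit.r 1).l 1).r 0).l 1) (selB2 0 (selB2 0 (selB2 0 (selB2 0 C1 5986409208923590739560607441593776447388762247331905) 6955201441276671391318214548045092052025344) 664695127530845094378417501891444735) 113361375) :=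
  Ok2.run hw hf11 ⟨393,19,19,13,13⟩ 58
    (.part 1983 (.chk false 0) (.split 1 (.part 1 (.chk false 0) (.split 1 (.split 0 (.chk false 0) (.chk false 0)) (.chk false 0))) (.chk false 0)))
    (by decide +kernel)

theorem p1_11_44 : Ok2 par f11 (((Box3.unit.r 1).l 1).r 0) (selB2 1 (selB2 0 (selB2 0 (selB2 0 C1 5986409208923590739560607441593776447388762247331905) 6955201441276671391318214548045092052025344) 664695127530845094378417501891444735) 113361375) :=
  Ok2.run hw hf11 ⟨322,19,19,13,13⟩ 58
    (.chk false 0)
    (by decide +kernel)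


end Crest.Agent.R163.P7a
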