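import Crest.Agent.R163.Q3.D.P7a.S1
import Crest.Agent.R163.Q3.D.P7a.H

set_option autoImplicit false
set_option maxRecDepth 100000
set_option linter.all false
set_option Elab.async false

namespace Crest.Agent.R163.P7a

theorem p1_11_73 : Ok2 par f11 ((((((Box3.unit.r 1).r 1).r 1).r 0).r 1).r 0) (selB2 0 (selB2 0 (selB2 0 (selB2 0 (selB2 0 (selB2 0 (selB2 0 C1 5986409208923590739560607441593776447388762247331905) 6955201441276671391318214548045092052025344) 85031223574142040960322409477893521409) 39072540357382100053273870343) 1208858806053641713026049) 67121764389343) 16769016) :=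
  Ok2.run hw hf11 ⟨430,19,19,13,13⟩ 58
    (.split 1 (.chk false 0) (.part 11 (.chk false 0) (.split 0 (.chk false 0) (.chk false 0))))
    (by decide +kernel)

theorem p1_11_74 : Ok2 par f11 (((((Box3.unit.r 1).r 1).r 1).r 0).r 1) (selB2 1 (selB2 0 (selB2 0 (selB2 0 (selB2 0 (selB2 0 C1 5986409208923590739560607441593776447388762247331905) 6955201441276671391318214548045092052025344) 85031223574142040960322409477893521409) 39072540357382100053273870343) 1208858806053641713026049) 67121764389343) :=
  Ok2.run hw hf11 ⟨370,19,19,13,13⟩ 58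
    (.chk false 0)
    (by decide +kernel)

theorem p1_11_75 : Ok2 par f11 ((((Box3.unit.r 1).r 1).r 1).r 0) (selB2 1 (selB2 0 (selB2 0 (selB2 0 (selB2 0 C1 5986409208923590739560607441593776447388762247331905) 6955201441276671391318214548045092052025344) 85031223574142040960322409477893521409) 39072540357382100053273870343) 1208858806053641713026049) :=
  Ok2.run hw hf11 ⟨351,19,19,13,13⟩ 58
    (.chk false 0)
    (by decide +kernel)

theorem p1_11_76 : Ok2 par f11 (((Box3.unit.r 1).r 1).r 1) (selB2 1 (selB2 0 (selB2 0 (selB2 0 C1 5986409208923590739560607441593776447388762247331905) 6955201441276671391318214548045092052025344) 85031223574142040960322409477893521409) 39072540357382100053273870343) :=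
  Ok2.run hw hf11 ⟨322,19,19,13,13⟩ 58
    (.chk false 0)
    (by decide +kernel)

theorem p1_11_77 : Ok2 par f11 ((Box3.unit.r 1).r 1) (selB2 1 (selB2 0 (selB2 0 C1 5986409208923590739560607441593776447388762247331905) 6955201441276671391318214548045092052025344) 85031223574142040960322409477893521409) :=
  Ok2.run hw hf11 ⟨303,19,19,13,13⟩ 58
    (.chk false 0)
    (by decide +kernel)

theorem p1_11_78 : Ok2 par f11 (Box3.unit.r 1) (selB2 1 (selB2 0 C1 5986409208923590739560607441593776447388762247331905) 6955201441276671391318214548045092052025344) :=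
  Ok2.run hw hf11 ⟨281,19,19,13,13⟩ 58
    (.chk false 0)
    (by decide +kernel)

theorem p1_11_79 : Ok2 par f11 Box3.unit (selB2 1 C1 5986409208923590739560607441593776447388762247331905) :=
  Ok2.run hw hf11 ⟨252,19,19,13,13⟩ 58
    (.chk false 0)
    (by decide +kernel)

theorem p1_12_0 : Ok2 par f12 Box3.unit (selB2 1 (selB2 0 C1 77371252455336267181195263) 8796093022207) :=
  Ok2.run hw hf12 ⟨254,19,19,13,13⟩ 58
    (.chk false 0)
    (by decide +kernel)

theorem p1_12_1 : Ok2 par f12 Box3.unit (selB2 0 (selB2 0 C1 77371252455336267181195263) 8796093022207) :=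
  Ok2.run hw hf12 ⟨254,19,19,13,13⟩ 58
    (.chk false 0)
    (by decide +kernel)

theorem p1_12_2 : Ok2 par f12 Box3.unit (selB2 1 (selB2 1 C1 77371252455336267181195263) 8796093022207) :=
  Ok2.run hw hf12 ⟨254,19,19,13,13⟩ 58
    (.chk false 0)
    (by decide +kernel)

theorem p1_12_3 : Ok2 par f12 Box3.unit (selB2 0 (selB2 1 C1 77371252455336267181195263) 8796093022207) :=
  Ok2.run hw hf12 ⟨254,19,19,13,13⟩ 58
    (.chk false 0)
    (by decide +kernel)

theorem p1_13_0 : Ok2 par f13 Box3.unit (selB2 1 (selB2 0 C1 77371252455336267181195263) 8796093022207) :=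
  Ok2.run hw hf13 ⟨257,19,19,16,13⟩ 58
    (.chk false 0)
    (by decide +kernel)

theorem p1_13_1 : Ok2 par f13 Box3.unit (selB2 0 (selB2 0 C1 77371252455336267181195263) 8796093022207) :=
  Ok2.run hw hf13 ⟨257,19,19,16,13⟩ 58
    (.chk false 0)
    (by decide +kernel)

theorem p1_13_2 : Ok2 par f13 Box3.unit (selB2 1 (selB2 1 C1 77371252455336267181195263) 8796093022207) :=
  Ok2.run hw hf13 ⟨257,19,19,16,13⟩ 58
    (.chk false 0)
    (by decide +kernel)

theorem p1_13_3 : Ok2 par f13 Box3.unit (selB2 0 (selB2 1 C1 77371252455336267181195263) 8796093022207) :=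
  Ok2.run hw hf13 ⟨257,19,19,16,13⟩ 58
    (.chk false 0)
    (by decide +kernel)

theorem p1_14_0 : Ok2 par f14 Box3.unit (selB2 1 (selB2 1 C1 5993051621923178487934761689944874088958299434123197) 4611686018427387903) :=
  Ok2.run hw hf14 ⟨254,19,19,13,13⟩ 58
    (.chk false 0)
    (by decide +kernel)

theorem p1_14_1 : Ok2 par f14 Box3.unit (selB2 0 (selB2 1 C1 5993051621923178487934761689944874088958299434123197) 4611686018427387903) :=
  Ok2.run hw hf14 ⟨254,19,19,13,13⟩ 58
    (.chk false 0)
    (by decide +kernel)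

theorem p1_14_2 : Ok2 par f14 ((Box3.unit.l 0).l 1) (selB2 0 (selB2 0 C1 5993051621923178487934761689944874088958299434123197) 552384333873151) :=
  Ok2.run hw hf14 ⟨311,19,19,13,13⟩ 58
    (.chk false 0)
    (by decide +kernel)

theorem p1_14_3 : Ok2 par f14 ((Box3.unit.l 0).r 1) (selB2 0 (selB2 0 C1 5993051621923178487934761689944874088958299434123197) 552384333873151) :=
  Ok2.run hw hf14 ⟨367,19,19,13,13⟩ 58
    (.part 32 (.chk false 0) (.split 0 (.chk false 0) (.part 19 (.chk false 0) (.split 1 (.chk false 0) (.split 0 (.chk false 0) (.chk false 0))))))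
    (by decide +kernel)

theorem p1_14_4 : Ok2 par f14 (Box3.unit.l 0) (selB2 1 (selB2 0 C1 5993051621923178487934761689944874088958299434123197) 552384333873151) :=
  Ok2.run hw hf14 ⟨282,19,19,13,13⟩ 58
    (.chk false 0)
    (by decide +kernel)

theorem p1_14_5 : Ok2 par f14 (((Box3.unit.r 0).r 1).l 0) (selB2 0 (selB2 0 (selB2 0 C1 5993051621923178487934761689944874088958299434123197) 118733468003423) 128) :=
  Ok2.run hw hf14 ⟨384,19,19,13,13⟩ 58
    (.part 180223 (.chk false 0) (.split 2 (.split 1 (.chk false 0) (.split 0 (.chk false 0) (.chk false 0))) (.chk false 0)))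
    (by decide +kernel)

theorem p1_14_6 : Ok2 par f14 (((Box3.unit.r 0).r 1).r 0) (selB2 0 (selB2 0 (selB2 0 C1 5993051621923178487934761689944874088958299434123197) 118733468003423) 128) :=
  Ok2.run hw hf14 ⟨375,19,19,13,13⟩ 58
    (.part 262131 (.chk false 0) (.split 0 (.chk false 0) (.part 2 (.chk false 0) (.split 1 (.chk false 0) (.chk false 0)))))
    (by decide +kernel)

theorem p1_14_7 : Ok2 par f14 ((Box3.unit.r 0).r 1) (selB2 1 (selB2 0 (selB2 0 C1 5993051621923178487934761689944874088958299434123197) 118733468003423) 128) :=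
  Ok2.run hw hf14 ⟨311,19,19,13,13⟩ 58
    (.chk false 0)
    (by decide +kernel)

theorem p1_14_8 : Ok2 par f14 ((Box3.unit.r 0).l 1) (selB2 0 (selB2 0 C1 5993051621923178487934761689944874088958299434123197) 118733468003423) :=
  Ok2.run hw hf14 ⟨311,19,19,13,13⟩ 58
    (.chk false 0)
    (by decide +kernel)

theorem p1_14_9 : Ok2 par f14 (Box3.unit.r 0) (selB2 1 (selB2 0 C1 5993051621923178487934761689944874088958299434123197) 118733468003423) :=
  Ok2.run hw hf14 ⟨282,19,19,13,13⟩ 58
    (.chk false 0)
    (by decide +kernel)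

theorem p1_15_0 : Ok2 par f15 Box3.unit (selB2 1 (selB2 0 (selB2 1 C1 5986429190407622499758767878502681952210211286548479) 576460752303423487) 536870911) :=
  Ok2.run hw hf15 ⟨257,19,19,16,13⟩ 58
    (.chk false 0)
    (by decide +kernel)

theorem p1_15_1 : Ok2 par f15 Box3.unit (selB2 0 (selB2 0 (selB2 1 C1 5986429190407622499758767878502681952210211286548479) 576460752303423487) 536870911) :=
  Ok2.run hw hf15 ⟨257,19,19,16,13⟩ 58
    (.chk false 0)
    (by decide +kernel)

theorem p1_15_2 : Ok2 par f15 Box3.unit (selB2 1 (selB2 1 (selB2 1 C1 5986429190407622499758767878502681952210211286548479) 576460752303423487) 536870911) :=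
  Ok2.run hw hf15 ⟨257,19,19,16,13⟩ 58
    (.chk false 0)
    (by decide +kernel)

theorem p1_15_3 : Ok2 par f15 Box3.unit (selB2 0 (selB2 1 (selB2 1 C1 5986429190407622499758767878502681952210211286548479) 576460752303423487) 536870911) :=
  Ok2.run hw hf15 ⟨257,19,19,16,13⟩ 58
    (.chk false 0)
    (by decide +kernel)

theorem p1_15_4 : Ok2 par f15 (Box3.unit.l 0) (selB2 1 (selB2 0 C1 5986429190407622499758767878502681952210211286548479) 29637748243562495) :=
  Ok2.run hw hf15 ⟨285,19,19,16,13⟩ 58
    (.chk false 0)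
    (by decide +kernel)


end Crest.Agent.R163.P7a
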