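import Crest.Agent.R163.Q3.D.P7a.S1
import Crest.Agent.R163.Q3.D.P7a.H

set_option autoImplicit false
set_option maxRecDepth 100000
set_option linter.all false
set_option Elab.async false

namespace Crest.Agent.R163.P7a

theorem p1_15_5 : Ok2 par f15 (Box3.unit.l 0) (selB2 0 (selB2 0 C1 5986429190407622499758767878502681952210211286548479) 29637748243562495) :=
  Ok2.run hw hf15 ⟨336,19,19,16,13⟩ 58
    (.split 1 (.chk false 0) (.split 0 (.chk false 0) (.chk false 0)))
    (by decide +kernel)

theorem p1_15_6 : Ok2 par f15 (((((((Box3.unit.r 0).r 1).l 0).r 1).r 0).r 2).l 1) (selB2 0 (selB2 0 (selB2 0 (selB2 0 (selB2 0 C1 5986429190407622499758767878502681952210211286548479) 17732786190279257) 3145796) 65535) 1) :=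
  Ok2.run hw hf15 ⟨408,19,19,16,13⟩ 58
    (.chk false 0)
    (by decide +kernel)

theorem p1_15_7 : Ok2 par f15 (((((((Box3.unit.r 0).r 1).l 0).r 1).r 0).r 2).r 1) (selB2 0 (selB2 0 (selB2 0 (selB2 0 (selB2 0 C1 5986429190407622499758767878502681952210211286548479) 17732786190279257) 3145796) 65535) 1) :=
  Ok2.run hw hf15 ⟨486,19,19,16,13⟩ 58
    (.split 0 (.chk false 0) (.split 2 (.chk false 0) (.split 1 (.chk false 0) (.split 0 (.chk false 0) (.chk false 0)))))
    (by decide +kernel)

theorem p1_15_8 : Ok2 par f15 ((((((Box3.unit.r 0).r 1).l 0).r 1).r 0).l 2) (selB2 0 (selB2 0 (selB2 0 (selB2 0 (selB2 0 C1 5986429190407622499758767878502681952210211286548479) 17732786190279257) 3145796) 65535) 1) :=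
  Ok2.run hw hf15 ⟨392,19,19,16,13⟩ 58
    (.chk false 0)
    (by decide +kernel)

theorem p1_15_9 : Ok2 par f15 (((((Box3.unit.r 0).r 1).l 0).r 1).r 0) (selB2 1 (selB2 0 (selB2 0 (selB2 0 (selB2 0 C1 5986429190407622499758767878502681952210211286548479) 17732786190279257) 3145796) 65535) 1) :=
  Ok2.run hw hf15 ⟨370,19,19,16,13⟩ 58
    (.chk false 0)
    (by decide +kernel)

theorem p1_15_10 : Ok2 par f15 (((((Box3.unit.r 0).r 1).l 0).r 1).l 0) (selB2 0 (selB2 0 (selB2 0 (selB2 0 C1 5986429190407622499758767878502681952210211286548479) 17732786190279257) 3145796) 65535) :=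
  Ok2.run hw hf15 ⟨364,19,19,16,13⟩ 58
    (.chk false 0)
    (by decide +kernel)

theorem p1_15_11 : Ok2 par f15 ((((Box3.unit.r 0).r 1).l 0).l 1) (selB2 0 (selB2 0 (selB2 0 (selB2 0 C1 5986429190407622499758767878502681952210211286548479) 17732786190279257) 3145796) 65535) :=
  Ok2.run hw hf15 ⟨340,19,19,16,13⟩ 58
    (.chk false 0)
    (by decide +kernel)

theorem p1_15_12 : Ok2 par f15 (((Box3.unit.r 0).r 1).l 0) (selB2 1 (selB2 0 (selB2 0 (selB2 0 C1 5986429190407622499758767878502681952210211286548479) 17732786190279257) 3145796) 65535) :=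
  Ok2.run hw hf15 ⟨327,19,19,16,13⟩ 58
    (.chk false 0)
    (by decide +kernel)

theorem p1_15_13 : Ok2 par f15 (((Box3.unit.r 0).r 1).r 0) (selB2 1 (selB2 0 (selB2 0 (selB2 0 C1 5986429190407622499758767878502681952210211286548479) 17732786190279257) 3145796) 262007) :=
  Ok2.run hw hf15 ⟨336,19,19,16,13⟩ 58
    (.chk false 0)
    (by decide +kernel)

theorem p1_15_14 : Ok2 par f15 (((Box3.unit.r 0).r 1).r 0) (selB2 0 (selB2 0 (selB2 0 (selB2 0 C1 5986429190407622499758767878502681952210211286548479) 17732786190279257) 3145796) 262007) :=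
  Ok2.run hw hf15 ⟨378,19,19,16,13⟩ 58
    (.split 1 (.chk false 0) (.part 2 (.chk false 0) (.split 0 (.chk false 0) (.chk false 0))))
    (by decide +kernel)

theorem p1_15_15 : Ok2 par f15 ((Box3.unit.r 0).r 1) (selB2 1 (selB2 0 (selB2 0 C1 5986429190407622499758767878502681952210211286548479) 17732786190279257) 3145796) :=
  Ok2.run hw hf15 ⟨314,19,19,16,13⟩ 58
    (.chk false 0)
    (by decide +kernel)

theorem p1_15_16 : Ok2 par f15 ((Box3.unit.r 0).l 1) (selB2 0 (selB2 0 C1 5986429190407622499758767878502681952210211286548479) 17732786190279257) :=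
  Ok2.run hw hf15 ⟨314,19,19,16,13⟩ 58
    (.chk false 0)
    (by decide +kernel)

theorem p1_15_17 : Ok2 par f15 (Box3.unit.r 0) (selB2 1 (selB2 0 C1 5986429190407622499758767878502681952210211286548479) 17732786190279257) :=
  Ok2.run hw hf15 ⟨285,19,19,16,13⟩ 58
    (.chk false 0)
    (by decide +kernel)

theorem p1_16_0 : Ok2 par f16 Box3.unit (selB2 1 (selB2 1 C1 11972621413014756705919109190657415329730078051663541) 18446744073709551615) :=
  Ok2.run hw hf16 ⟨252,19,19,13,13⟩ 58
    (.chk false 0)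
    (by decide +kernel)

theorem p1_16_1 : Ok2 par f16 Box3.unit (selB2 0 (selB2 1 C1 11972621413014756705919109190657415329730078051663541) 18446744073709551615) :=
  Ok2.run hw hf16 ⟨252,19,19,13,13⟩ 58
    (.chk false 0)
    (by decide +kernel)

theorem p1_16_2 : Ok2 par f16 ((Box3.unit.l 1).l 0) (selB2 1 (selB2 0 (selB2 0 C1 11972621413014756705919109190657415329730078051663541) 2765958963361) 68685315967) :=
  Ok2.run hw hf16 ⟨309,19,19,13,13⟩ 58
    (.chk false 0)
    (by decide +kernel)

theorem p1_16_3 : Ok2 par f16 ((Box3.unit.l 1).l 0) (selB2 0 (selB2 0 (selB2 0 C1 11972621413014756705919109190657415329730078051663541) 2765958963361) 68685315967) :=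
  Ok2.run hw hf16 ⟨364,19,19,13,13⟩ 58
    (.split 1 (.part 10 (.chk false 0) (.split 0 (.chk false 0) (.split 1 (.chk false 0) (.chk false 0)))) (.chk false 0))
    (by decide +kernel)

theorem p1_16_4 : Ok2 par f16 (((Box3.unit.l 1).r 0).l 1) (selB2 1 (selB2 0 (selB2 0 (selB2 0 C1 11972621413014756705919109190657415329730078051663541) 2765958963361) 68676853629) 69) :=
  Ok2.run hw hf16 ⟨331,19,19,13,13⟩ 58
    (.chk false 0)
    (by decide +kernel)

theorem p1_16_5 : Ok2 par f16 (((Box3.unit.l 1).r 0).l 1) (selB2 0 (selB2 0 (selB2 0 (selB2 0 C1 11972621413014756705919109190657415329730078051663541) 2765958963361) 68676853629) 69) :=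
  Ok2.run hw hf16 ⟨385,19,19,13,13⟩ 58
    (.split 0 (.part 2 (.chk false 0) (.split 1 (.part 11 (.chk false 0) (.split 0 (.chk false 0) (.chk false 0))) (.chk false 0))) (.chk false 0))
    (by decide +kernel)

theorem p1_16_6 : Ok2 par f16 (((Box3.unit.l 1).r 0).r 1) (selB2 0 (selB2 0 (selB2 0 C1 11972621413014756705919109190657415329730078051663541) 2765958963361) 68676853629) :=
  Ok2.run hw hf16 ⟨322,19,19,13,13⟩ 58
    (.chk false 0)
    (by decide +kernel)

theorem p1_16_7 : Ok2 par f16 ((Box3.unit.l 1).r 0) (selB2 1 (selB2 0 (selB2 0 C1 11972621413014756705919109190657415329730078051663541) 2765958963361) 68676853629) :=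
  Ok2.run hw hf16 ⟨309,19,19,13,13⟩ 58
    (.chk false 0)
    (by decide +kernel)

theorem p1_16_8 : Ok2 par f16 (Box3.unit.l 1) (selB2 1 (selB2 0 C1 11972621413014756705919109190657415329730078051663541) 2765958963361) :=
  Ok2.run hw hf16 ⟨281,19,19,13,13⟩ 58
    (.chk false 0)
    (by decide +kernel)

theorem p1_16_9 : Ok2 par f16 (Box3.unit.r 1) (selB2 1 (selB2 0 C1 11972621413014756705919109190657415329730078051663541) 13743894298623) :=
  Ok2.run hw hf16 ⟨281,19,19,13,13⟩ 58
    (.chk false 0)
    (by decide +kernel)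

theorem p1_16_10 : Ok2 par f16 (Box3.unit.r 1) (selB2 0 (selB2 0 C1 11972621413014756705919109190657415329730078051663541) 13743894298623) :=
  Ok2.run hw hf16 ⟨309,19,19,13,13⟩ 58
    (.split 0 (.chk false 0) (.chk false 0))
    (by decide +kernel)

theorem p1_17_0 : Ok2 par f17 Box3.unit (selB2 1 (selB2 1 C1 11972621413014756705924576246086608585293397791801443) 4611686018427387903) :=
  Ok2.run hw hf17 ⟨249,19,19,10,12⟩ 58
    (.chk false 0)
    (by decide +kernel)

theorem p1_17_1 : Ok2 par f17 Box3.unit (selB2 0 (selB2 1 C1 11972621413014756705924576246086608585293397791801443) 4611686018427387903) :=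
  Ok2.run hw hf17 ⟨249,19,19,10,12⟩ 58
    (.chk false 0)
    (by decide +kernel)

theorem p1_17_2 : Ok2 par f17 (Box3.unit.l 1) (selB2 1 (selB2 0 C1 11972621413014756705924576246086608585293397791801443) 281472828698623) :=
  Ok2.run hw hf17 ⟨277,19,19,10,12⟩ 58
    (.chk false 0)
    (by decide +kernel)

theorem p1_17_3 : Ok2 par f17 (Box3.unit.l 1) (selB2 0 (selB2 0 C1 11972621413014756705924576246086608585293397791801443) 281472828698623) :=
  Ok2.run hw hf17 ⟨328,19,19,10,12⟩ 58
    (.split 0 (.chk false 0) (.part 12 (.chk false 0) (.split 0 (.chk false 0) (.chk false 0))))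
    (by decide +kernel)

theorem p1_17_4 : Ok2 par f17 ((Box3.unit.r 1).l 0) (selB2 1 (selB2 0 (selB2 0 C1 11972621413014756705924576246086608585293397791801443) 422216760295424) 35184370515847) :=
  Ok2.run hw hf17 ⟨306,19,19,10,12⟩ 58
    (.chk false 0)
    (by decide +kernel)

theorem p1_17_5 : Ok2 par f17 ((Box3.unit.r 1).l 0) (selB2 0 (selB2 0 (selB2 0 C1 11972621413014756705924576246086608585293397791801443) 422216760295424) 35184370515847) :=
  Ok2.run hw hf17 ⟨350,19,19,10,12⟩ 58
    (.split 1 (.chk false 0) (.split 0 (.chk false 0) (.chk false 0)))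
    (by decide +kernel)

theorem p1_17_6 : Ok2 par f17 ((Box3.unit.r 1).r 0) (selB2 0 (selB2 0 C1 11972621413014756705924576246086608585293397791801443) 422216760295424) :=
  Ok2.run hw hf17 ⟨306,19,19,10,12⟩ 58
    (.chk false 0)
    (by decide +kernel)

theorem p1_17_7 : Ok2 par f17 (Box3.unit.r 1) (selB2 1 (selB2 0 C1 11972621413014756705924576246086608585293397791801443) 422216760295424) :=
  Ok2.run hw hf17 ⟨277,19,19,10,12⟩ 58
    (.chk false 0)
    (by decide +kernel)

theorem p1_18_0 : Ok2 par f18 Box3.unit (selB2 1 C1 77371252455336267181195263) :=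
  Ok2.run hw hf18 ⟨253,19,19,10,12⟩ 58
    (.chk false 0)
    (by decide +kernel)

theorem p1_18_1 : Ok2 par f18 Box3.unit (selB2 0 C1 77371252455336267181195263) :=
  Ok2.run hw hf18 ⟨253,19,19,10,12⟩ 58
    (.chk false 0)
    (by decide +kernel)


end Crest.Agent.R163.P7a
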