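import Crest.Agent.R163.Q3.D.P7a.P1_0
import Crest.Agent.R163.Q3.D.P7a.P1_1
import Crest.Agent.R163.Q3.D.P7a.P1_2
import Crest.Agent.R163.Q3.D.P7a.P1_3
import Crest.Agent.R163.Q3.D.P7a.P1_4
import Crest.Agent.R163.Q3.D.P7a.P1_5
import Crest.Agent.R163.Q3.D.P7a.P1_6
import Crest.Agent.R163.Q3.D.P7a.P1_7

set_option autoImplicit false
set_option maxRecDepth 100000
set_option linter.all false
set_option Elab.async false

namespace Crest.Agent.R163.P7a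

theorem o1_19 : Ok2 par f19 Box3.unit C1 :=
  (Ok2.part 77371252455336267181195263 (Ok2.part 8796093022207 p1_19_2 p1_19_3) (Ok2.part 8796093022207 p1_19_0 p1_19_1))
theorem o1_18 : Ok2 par f18 Box3.unit C1 :=
  (Ok2.part 77371252455336267181195263 p1_18_0 p1_18_1)
theorem o1_17 : Ok2 par f17 Box3.unit C1 :=
  (Ok2.part 11972621413014756705924576246086608585293397791801443 (Ok2.part 4611686018427387903 p1_17_0 p1_17_1) (Ok2.split 1 (Ok2.part 281472828698623 p1_17_2 p1_17_3) (Ok2.part 422216760295424 p1_17_7 (Ok2.split 0 (Ok2.part 35184370515847 p1_17_4 p1_17_5) p1_17_6))))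
theorem o1_16 : Ok2 par f16 Box3.unit C1 :=
  (Ok2.part 11972621413014756705919109190657415329730078051663541 (Ok2.part 18446744073709551615 p1_16_0 p1_16_1) (Ok2.split 1 (Ok2.part 2765958963361 p1_16_8 (Ok2.split 0 (Ok2.part 68685315967 p1_16_2 p1_16_3) (Ok2.part 68676853629 p1_16_7 (Ok2.split 1 (Ok2.part 69 p1_16_4 p1_16_5) p1_16_6)))) (Ok2.part 13743894298623 p1_16_9 p1_16_10)))
theorem o1_15 : Ok2 par f15 Box3.unit C1 :=
  (Ok2.part 5986429190407622499758767878502681952210211286548479 (Ok2.part 576460752303423487 (Ok2.part 536870911 p1_15_2 p1_15_3) (Ok2.part 536870911 p1_15_0 p1_15_1)) (Ok2.split 0 (Ok2.part 29637748243562495 p1_15_4 p1_15_5) (Ok2.part 17732786190279257 p1_15_17 (Ok2.split 1 p1_15_16 (Ok2.part 3145796 p1_15_15 (Ok2.split 0 (Ok2.part 65535 p1_15_12 (Ok2.split 1 p1_15_11 (Ok2.split 0 p1_15_10 (Ok2.part 1 p1_15_9 (Ok2.split 2 p1_15_8 (Ok2.split 1 p1_15_6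 p1_15_7)))))) (Ok2.part 262007 p1_15_13 p1_15_14)))))))
theorem o1_14 : Ok2 par f14 Box3.unit C1 :=
  (Ok2.part 5993051621923178487934761689944874088958299434123197 (Ok2.part 4611686018427387903 p1_14_0 p1_14_1) (Ok2.split 0 (Ok2.part 552384333873151 p1_14_4 (Ok2.split 1 p1_14_2 p1_14_3)) (Ok2.part 118733468003423 p1_14_9 (Ok2.split 1 p1_14_8 (Ok2.part 128 p1_14_7 (Ok2.split 0 p1_14_5 p1_14_6))))))
theorem o1_13 : Ok2 par f13 Box3.unit C1 :=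
  (Ok2.part 77371252455336267181195263 (Ok2.part 8796093022207 p1_13_2 p1_13_3) (Ok2.part 8796093022207 p1_13_0 p1_13_1))
theorem o1_12 : Ok2 par f12 Box3.unit C1 :=
  (Ok2.part 77371252455336267181195263 (Ok2.part 8796093022207 p1_12_2 p1_12_3) (Ok2.part 8796093022207 p1_12_0 p1_12_1))
theorem o1_11 : Ok2 par f11 Box3.unit C1 :=
  (Ok2.part 5986409208923590739560607441593776447388762247331905 p1_11_79 (Ok2.split 1 (Ok2.part 2792186961769760561868440111072315208335359 (Ok2.part 9223372036854775807 (Ok2.part 2147483647 p1_11_2 p1_11_3) (Ok2.part 2147483647 p1_11_0 p1_11_1)) (Ok2.split 1 (Ok2.part 523147 p1_11_6 (Ok2.split 1 p1_11_4 p1_11_5)) (Ok2.part 1632 p1_11_19 (Ok2.split 0 (Ok2.part 6224 p1_11_16 (Ok2.split 1 (Ok2.part 1851 p1_11_9 (Ok2.split 0 p1_11_7 p1_11_8)) (Ok2.part 240 p1_11_15 (Ok2.split 0 p1_11_14 (Ok2.part 79 p1_11_13 (Ok2.split 2 (Ok2.part 1 p1_11_10 p1_11_11)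 p1_11_12)))))) (Ok2.part 27231 p1_11_17 p1_11_18))))) (Ok2.part 6955201441276671391318214548045092052025344 p1_11_78 (Ok2.split 1 (Ok2.part 664695127530845094378417501891444735 (Ok2.part 562949953421311 p1_11_20 p1_11_21) (Ok2.split 0 (Ok2.part 19011060 p1_11_39 (Ok2.split 1 (Ok2.part 3800 p1_11_27 (Ok2.split 0 (Ok2.part 303 p1_11_24 (Ok2.split 1 p1_11_22 p1_11_23)) (Ok2.part 351 p1_11_25 p1_11_26))) (Ok2.part 61511 p1_11_38 (Ok2.split 0 (Ok2.part 219 p1_11_30 (Ok2.split 1 p1_11_28 p1_11_29)) (Ok2.part 144 p1_11_37 (Ok2.split 1 (Ok2.part 27 p1_11_35 (Ok2.split 2 p1_11_34 (Ok2.part 1 p1_11_33 (Ok2.split 1 p1_11_31 p1_11_32)))) p1_11_36)))))) (Ok2.part 113361375 p1_11_44 (Ok2.split 1 p1_11_43 (Ok2.part 3570 p1_11_42 (Ok2.split 1 p1_11_40 p1_11_41)))))) (Ok2.part 85031223574142040960322409477893521409 p1_11_77 (Ok2.split 1 (Ok2.part 62795022669899346993151 (Ok2.part 4294967295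 p1_11_45 p1_11_46) (Ok2.split 0 (Ok2.part 1141149685 p1_11_53 (Ok2.split 0 (Ok2.part 114687 p1_11_47 p1_11_48) (Ok2.part 24609 p1_11_52 (Ok2.split 1 (Ok2.part 6138 p1_11_49 p1_11_50) p1_11_51)))) (Ok2.part 2076179903 p1_11_56 (Ok2.split 1 p1_11_54 p1_11_55)))) (Ok2.part 39072540357382100053273870343 p1_11_76 (Ok2.split 0 (Ok2.part 370829131506260081835007 (Ok2.part 8589934591 p1_11_57 p1_11_58) (Ok2.split 0 p1_11_64 (Ok2.part 6539 p1_11_63 (Ok2.split 1 (Ok2.part 39 p1_11_61 (Ok2.split 0 p1_11_59 p1_11_60)) p1_11_62)))) (Ok2.part 1208858806053641713026049 p1_11_75 (Ok2.split 1 (Ok2.part 39951785787391 p1_11_68 (Ok2.split 0 (Ok2.part 83 p1_11_65 p1_11_66) p1_11_67)) (Ok2.part 67121764389343 p1_11_74 (Ok2.split 0 (Ok2.part 8312827 p1_11_71 (Ok2.split 1 p1_11_69 p1_11_70)) (Ok2.part 16769016 p1_11_72 p1_11_73)))))))))))))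
theorem o1_10 : Ok2 par f10 Box3.unit C1 :=
  (Ok2.part 7115092135919622768571110974274964451408426081189887 (Ok2.part 302231454903657293676543 (Ok2.part 549755813887 p1_10_2 p1_10_3) (Ok2.part 549755813887 p1_10_0 p1_10_1)) (Ok2.split 1 (Ok2.part 65166 p1_10_16 (Ok2.split 1 (Ok2.part 24 p1_10_4 p1_10_5) (Ok2.part 3 p1_10_15 (Ok2.split 0 p1_10_14 (Ok2.split 1 (Ok2.part 2 p1_10_12 (Ok2.split 0 p1_10_11 (Ok2.part 1 p1_10_10 (Ok2.split 1 p1_10_9 (Ok2.split 0 p1_10_8 (Ok2.split 1 p1_10_6 p1_10_7)))))) p1_10_13))))) p1_10_17))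
theorem o1_9 : Ok2 par f9 Box3.unit C1 :=
  (Ok2.part 8613890791149872568447923960922612643236249811812351 (Ok2.part 2417851639229258349412351 (Ok2.part 1099511627775 p1_9_2 p1_9_3) (Ok2.part 1099511627775 p1_9_0 p1_9_1)) (Ok2.split 1 (Ok2.part 1025 p1_9_10 (Ok2.split 1 p1_9_9 (Ok2.part 191 p1_9_8 (Ok2.split 0 p1_9_7 (Ok2.split 0 p1_9_6 (Ok2.split 1 p1_9_4 p1_9_5)))))) p1_9_11))
theorem o1_8 : Ok2 par f8 Box3.unit C1 :=
  (Ok2.part 77371252455336267181195263 (Ok2.part 8796093022207 p1_8_2 p1_8_3) (Ok2.part 8796093022207 p1_8_0 p1_8_1))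
theorem o1_7 : Ok2 par f7 Box3.unit C1 :=
  (Ok2.part 77371252455336267181195263 (Ok2.part 8796093022207 p1_7_2 p1_7_3) (Ok2.part 8796093022207 p1_7_0 p1_7_1))
theorem o1_6 : Ok2 par f6 Box3.unit C1 :=
  (Ok2.part 77371252455336267181195263 (Ok2.part 8796093022207 p1_6_2 p1_6_3) (Ok2.part 8796093022207 p1_6_0 p1_6_1))
theorem o1_5 : Ok2 par f5 Box3.unit C1 :=
  (Ok2.part 77371252455336267181195263 (Ok2.part 8796093022207 p1_5_2 p1_5_3) (Ok2.part 8796093022207 p1_5_0 p1_5_1))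
theorem o1_4 : Ok2 par f4 Box3.unit C1 :=
  (Ok2.part 77371252455336267181195263 (Ok2.part 8796093022207 p1_4_2 p1_4_3) (Ok2.part 8796093022207 p1_4_0 p1_4_1))
theorem o1_3 : Ok2 par f3 Box3.unit C1 :=
  (Ok2.part 11972618558519371294004824033039851598031126626566143 (Ok2.part 77371252455336267181195263 (Ok2.part 8796093022207 p1_3_2 p1_3_3) (Ok2.part 8796093022207 p1_3_0 p1_3_1)) p1_3_4)
theorem o1_2 : Ok2 par f2 Box3.unit C1 :=
  (Ok2.part 77371252455336267181195263 (Ok2.part 8796093022207 p1_2_2 p1_2_3) (Ok2.part 8796093022207 p1_2_0 p1_2_1))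
theorem o1_1 : Ok2 par f1 Box3.unit C1 :=
  (Ok2.part 11972621395851212028867376788070660372925707673075819 (Ok2.part 1125899906842623 p1_1_0 p1_1_1) (Ok2.split 0 (Ok2.part 8854437155380584775487 (Ok2.part 34359738367 p1_1_2 p1_1_3) p1_1_4) (Ok2.part 9444732965739253138883 (Ok2.part 536870911 p1_1_5 p1_1_6) (Ok2.split 2 p1_1_9 (Ok2.split 1 p1_1_7 p1_1_8)))))
theorem o1_0 : Ok2 par f0 Box3.unit C1 :=
  (Ok2.part 11972621396289197305777125640905926561240429730398575 (Ok2.part 144115188075855871 p1_0_0 p1_0_1) (Ok2.split 0 (Ok2.part 158594261750153224 p1_0_8 (Ok2.split 0 (Ok2.part 4398046511095 p1_0_2 p1_0_3) (Ok2.part 4398046472127 p1_0_7 (Ok2.split 1 p1_0_6 (Ok2.part 8 p1_0_4 p1_0_5))))) (Ok2.part 576179277326712831 p1_0_9 p1_0_10)))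

theorem pt1 : PtAll2 par C1 :=
  PtAll2.of_okD hw (OkD2.cover [f0.dom,f1.dom,f2.dom,f3.dom,f4.dom,f5.dom,f6.dom,f7.dom,f8.dom,f9.dom,f10.dom,f11.dom,f12.dom,f13.dom,f14.dom,f15.dom,f16.dom,f17.dom,f18.dom,f19.dom]
    (.split 0 (.split 0 (.split 2 (.leaf 0) (.leaf 1)) (.split 2 (.split 1 (.leaf 2) (.leaf 3)) (.split 1 (.split 2 (.leaf 4) (.leaf 5)) (.split 2 (.leaf 6) (.split 0 (.leaf 7) (.leaf 8)))))) (.split 1 (.split 0 (.split 2 (.leaf 9) (.leaf 10)) (.leaf 11)) (.split 0 (.split 1 (.split 2 (.leaf 12) (.leaf 13)) (.split 2 (.leaf 14) (.leaf 15))) (.split 1 (.leaf 16) (.split 0 (.leaf 17) (.split 1 (.leaf 18) (.leaf 19)))))))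
    (by decide +kernel)
    (List.forall_mem_cons.2 ⟨OkD2.of_ok o1_0, (List.forall_mem_cons.2 ⟨OkD2.of_ok o1_1, (List.forall_mem_cons.2 ⟨OkD2.of_ok o1_2, (List.forall_mem_cons.2 ⟨OkD2.of_ok o1_3, (List.forall_mem_cons.2 ⟨OkD2.of_ok o1_4, (List.forall_mem_cons.2 ⟨OkD2.of_ok o1_5, (List.forall_mem_cons.2 ⟨OkD2.of_ok o1_6, (List.forall_mem_cons.2 ⟨OkD2.of_ok o1_7, (List.forall_mem_cons.2 ⟨OkD2.of_ok o1_8, (List.forall_mem_cons.2 ⟨OkD2.of_ok o1_9, (List.forall_mem_cons.2 ⟨OkD2.of_ok o1_10, (List.forall_mem_cons.2 ⟨OkD2.of_ok o1_11, (List.forall_mem_cons.2 ⟨OkD2.of_ok o1_12, (List.forall_mem_cons.2 ⟨OkD2.of_ok o1_13, (List.forall_mem_cons.2 ⟨OkD2.of_ok o1_14, (List.forall_mem_cons.2 ⟨OkD2.of_ok o1_15, (List.forall_mem_cons.2 ⟨OkD2.of_ok o1_16, (List.forall_mem_cons.2 ⟨OkD2.of_ok o1_17, (List.forall_mem_cons.2 ⟨OkD2.of_ok o1_18, (List.forall_mem_cons.2 ⟨OkD2.of_ok o1_19, (fun _ h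 => nomatch h)⟩)⟩)⟩)⟩)⟩)⟩)⟩)⟩)⟩)⟩)⟩)⟩)⟩)⟩)⟩)⟩)⟩)⟩)⟩)⟩))

end Crest.Agent.R163.P7a
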