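import Crest.Agent.R163.Q3.D.P7a.T0_0
import Crest.Agent.R163.Q3.D.P7a.M0
import Crest.Agent.R163.Q3.D.P7a.T1_0
import Crest.Agent.R163.Q3.D.P7a.M1

set_option autoImplicit false
set_option maxRecDepth 100000
set_option linter.all false
set_option Elab.async false

namespace Crest.Agent.R163.P7a

theorem Inf.cast {a b : Box} (h : Inf par a) (e : Box.beq a b = true) : Inf par b :=
  Box.eq_of_beq e ▸ h

theorem n64 : Inf par b64_1 :=
  Inf.empty (by decide +kernel)
theorem n64_1 : Inf par a64_1 :=
  Inf.steps2 hw _ b64_1 s64_1 c64_1 pt1.right.right.right.right.right.right.right.right.right.right.right.right.right.right.right.right.right.right.right.right.right.right.right n64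
theorem n64_0 : Inf par a64_0 :=
  Inf.steps2 hw _ b64_0 s64_0 c64_0 pt1.right.right.right.right.right.right.right.right.right.right.right.right.right.right.right.right.right.right.right.right.right.right.left (Inf.cast n64_1 (by decide +kernel))
theorem n63 : Inf par b63_0 :=
  Inf.empty (by decide +kernel)
theorem n63_0 : Inf par a63_0 :=
  Inf.steps2 hw _ b63_0 s63_0 c63_0 pt1.right.right.right.right.right.right.right.right.right.right.right.right.right.right.right.right.right.right.right.right.right.left n63
theorem n62 : Inf par b62_0 :=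
  Inf.empty (by decide +kernel)
theorem n62_0 : Inf par a62_0 :=
  Inf.steps2 hw _ b62_0 s62_0 c62_0 pt1.right.right.right.right.right.right.right.right.right.right.right.right.right.right.right.right.right.right.right.right.left n62
theorem n61 : Inf par b61_0 :=
  Inf.spG 1 ⟨486204099,0,0⟩ (Inf.cast n62_0 (by decide +kernel)) (Inf.cast n63_0 (by decide +kernel))
theorem n61_0 : Inf par a61_0 :=
  Inf.steps2 hw _ b61_0 s61_0 c61_0 pt1.right.right.right.right.right.right.right.right.right.right.right.right.right.right.right.right.right.right.right.left n61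
theorem n60 : Inf par b60_0 :=
  Inf.empty (by decide +kernel)
theorem n60_0 : Inf par a60_0 :=
  Inf.steps2 hw _ b60_0 s60_0 c60_0 pt1.right.right.right.right.right.right.right.right.right.right.right.right.right.right.right.right.right.right.left n60
theorem n59 : Inf par b59_0 :=
  Inf.empty (by decide +kernel)
theorem n59_0 : Inf par a59_0 :=
  Inf.steps2 hw _ b59_0 s59_0 c59_0 pt1.right.right.right.right.right.right.right.right.right.right.right.right.right.right.right.right.right.left n59
theorem n58 : Inf par b58_0 :=
  Inf.spG 1 ⟨382017506,0,0⟩ (Inf.cast n59_0 (by decide +kernel)) (Inf.cast n60_0 (by decide +kernel))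
theorem n58_0 : Inf par a58_0 :=
  Inf.steps2 hw _ b58_0 s58_0 c58_0 pt1.right.right.right.right.right.right.right.right.right.right.right.right.right.right.right.right.left n58
theorem n57 : Inf par b57_0 :=
  Inf.empty (by decide +kernel)
theorem n57_0 : Inf par a57_0 :=
  Inf.steps2 hw _ b57_0 s57_0 c57_0 pt1.right.right.right.right.right.right.right.right.right.right.right.right.right.right.right.left n57
theorem n56 : Inf par b56_0 :=
  Inf.empty (by decide +kernel)
theorem n56_0 : Inf par a56_0 :=
  Inf.steps2 hw _ b56_0 s56_0 c56_0 pt1.right.right.right.right.right.right.right.right.right.right.right.right.right.right.left n56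
theorem n55 : Inf par b55_0 :=
  Inf.spG 1 ⟨312559778,0,0⟩ (Inf.cast n56_0 (by decide +kernel)) (Inf.cast n57_0 (by decide +kernel))
theorem n55_0 : Inf par a55_0 :=
  Inf.steps2 hw _ b55_0 s55_0 c55_0 pt1.right.right.right.right.right.right.right.right.right.right.right.right.right.left n55
theorem n54 : Inf par b54_0 :=
  Inf.spG 1 ⟨347288642,0,0⟩ (Inf.cast n55_0 (by decide +kernel)) (Inf.cast n58_0 (by decide +kernel))
theorem n54_0 : Inf par a54_0 :=
  Inf.steps2 hw _ b54_0 s54_0 c54_0 pt1.right.right.right.right.right.right.right.right.right.right.right.right.left n54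
theorem n53 : Inf par b53_0 :=
  Inf.spG 1 ⟨416746371,0,0⟩ (Inf.cast n54_0 (by decide +kernel)) (Inf.cast n61_0 (by decide +kernel))
theorem n53_0 : Inf par a53_0 :=
  Inf.steps2 hw _ b53_0 s53_0 c53_0 pt1.right.right.right.right.right.right.right.right.right.right.right.left n53
theorem n52 : Inf par b52_0 :=
  Inf.empty (by decide +kernel)
theorem n52_0 : Inf par a52_0 :=
  Inf.steps2 hw _ b52_0 s52_0 c52_0 pt1.right.right.right.right.right.right.right.right.right.right.left n52
theorem n51 : Inf par b51_0 :=
  Inf.empty (by decide +kernel)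
theorem n51_0 : Inf par a51_0 :=
  Inf.steps2 hw _ b51_0 s51_0 c51_0 pt1.right.right.right.right.right.right.right.right.right.left n51
theorem n50 : Inf par b50_0 :=
  Inf.empty (by decide +kernel)
theorem n50_0 : Inf par a50_0 :=
  Inf.steps2 hw _ b50_0 s50_0 c50_0 pt1.right.right.right.right.right.right.right.right.left n50
theorem n49 : Inf par b49_0 :=
  Inf.spG 1 ⟨225737617,0,0⟩ (Inf.cast n50_0 (by decide +kernel)) (Inf.cast n51_0 (by decide +kernel))
theorem n49_0 : Inf par a49_0 :=
  Inf.steps2 hw _ b49_0 s49_0 c49_0 pt1.right.right.right.right.right.right.right.left n49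
theorem n48 : Inf par b48_0 :=
  Inf.spG 1 ⟨243102049,0,0⟩ (Inf.cast n49_0 (by decide +kernel)) (Inf.cast n52_0 (by decide +kernel))
theorem n48_0 : Inf par a48_0 :=
  Inf.steps2 hw _ b48_0 s48_0 c48_0 pt1.right.right.right.right.right.right.left n48
theorem n47 : Inf par b47_0 :=
  Inf.empty (by decide +kernel)
theorem n47_0 : Inf par a47_0 :=
  Inf.steps2 hw _ b47_0 s47_0 c47_0 pt1.right.right.right.right.right.left n47
theorem n46 : Inf par b46_0 :=
  Inf.empty (by decide +kernel)
theorem n46_0 : Inf par a46_0 :=
  Inf.steps2 hw _ b46_0 s46_0 c46_0 pt1.right.right.right.right.left n46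
theorem n45 : Inf par b45_0 :=
  Inf.spG 4 ⟨121914943,0,0⟩ (Inf.cast n46_0 (by decide +kernel)) (Inf.cast n47_0 (by decide +kernel))
theorem n45_0 : Inf par a45_0 :=
  Inf.steps2 hw _ b45_0 s45_0 c45_0 pt1.right.right.right.left n45
theorem n44 : Inf par b44_0 :=
  Inf.empty (by decide +kernel)
theorem n44_0 : Inf par a44_0 :=
  Inf.steps2 hw _ b44_0 s44_0 c44_0 pt1.right.right.left n44
theorem n43 : Inf par b43_0 :=
  Inf.empty (by decide +kernel)
theorem n43_0 : Inf par a43_0 :=
  Inf.steps2 hw _ b43_0 s43_0 c43_0 pt1.right.left n43
theorem n42 : Inf par b42_0 :=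
  Inf.spG 4 ⟨100099251,0,0⟩ (Inf.cast n43_0 (by decide +kernel)) (Inf.cast n44_0 (by decide +kernel))
theorem n42_0 : Inf par a42_0 :=
  Inf.steps2 hw _ b42_0 s42_0 c42_0 pt1.left n42
theorem n41 : Inf par b41_0 :=
  Inf.spG 4 ⟨111007097,0,0⟩ (Inf.cast n42_0 (by decide +kernel)) (Inf.cast n45_0 (by decide +kernel))
theorem n41_0 : Inf par a41_0 :=
  Inf.steps2 hw _ b41_0 s41_0 c41_0 pt0.right.right.right.right.right.right.right.right.right.right.right.right.right.right.right.right.right.right.right.right.right.right.right.right.right.right.right.right.right.right.right.right.right.right.right.right.right.right.right.right n41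
theorem n40 : Inf par b40_0 :=
  Inf.spG 1 ⟨208373185,0,0⟩ (Inf.cast n41_0 (by decide +kernel)) (Inf.cast n48_0 (by decide +kernel))
theorem n40_0 : Inf par a40_0 :=
  Inf.steps2 hw _ b40_0 s40_0 c40_0 pt0.right.right.right.right.right.right.right.right.right.right.right.right.right.right.right.right.right.right.right.right.right.right.right.right.right.right.right.right.right.right.right.right.right.right.right.right.right.right.right.left n40
theorem n39 : Inf par b39_0 :=
  Inf.empty (by decide +kernel)
theorem n39_0 : Inf par a39_0 :=
  Inf.steps2 hw _ b39_0 s39_0 c39_0 pt0.right.right.right.right.right.right.right.right.right.right.right.right.right.right.right.right.right.right.right.right.right.right.right.right.right.right.right.right.right.right.right.right.right.right.right.right.right.right.left n39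
theorem n38 : Inf par b38_0 :=
  Inf.empty (by decide +kernel)
theorem n38_0 : Inf par a38_0 :=
  Inf.steps2 hw _ b38_0 s38_0 c38_0 pt0.right.right.right.right.right.right.right.right.right.right.right.right.right.right.right.right.right.right.right.right.right.right.right.right.right.right.right.right.right.right.right.right.right.right.right.right.right.left n38
theorem n37 : Inf par b37_0 :=
  Inf.empty (by decide +kernel)
theorem n37_0 : Inf par a37_0 :=
  Inf.steps2 hw _ b37_0 s37_0 c37_0 pt0.right.right.right.right.right.right.right.right.right.right.right.right.right.right.right.right.right.right.right.right.right.right.right.right.right.right.right.right.right.right.right.right.right.right.right.right.left n37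
theorem n36 : Inf par b36_0 :=
  Inf.spG 4 ⟨78774317,0,0⟩ (Inf.cast n37_0 (by decide +kernel)) (Inf.cast n38_0 (by decide +kernel))
theorem n36_0 : Inf par a36_0 :=
  Inf.steps2 hw _ b36_0 s36_0 c36_0 pt0.right.right.right.right.right.right.right.right.right.right.right.right.right.right.right.right.right.right.right.right.right.right.right.right.right.right.right.right.right.right.right.right.right.right.right.left n36
theorem n35 : Inf par b35_0 :=
  Inf.spG 4 ⟨82408169,0,0⟩ (Inf.cast n36_0 (by decide +kernel)) (Inf.cast n39_0 (by decide +kernel))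
theorem n35_0 : Inf par a35_0 :=
  Inf.steps2 hw _ b35_0 s35_0 c35_0 pt0.right.right.right.right.right.right.right.right.right.right.right.right.right.right.right.right.right.right.right.right.right.right.right.right.right.right.right.right.right.right.right.right.right.right.left n35
theorem n34 : Inf par b34_0 :=
  Inf.empty (by decide +kernel)
theorem n34_0 : Inf par a34_0 :=
  Inf.steps2 hw _ b34_0 s34_0 c34_0 pt0.right.right.right.right.right.right.right.right.right.right.right.right.right.right.right.right.right.right.right.right.right.right.right.right.right.right.right.right.right.right.right.right.right.left n34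
theorem n33 : Inf par b33_0 :=
  Inf.empty (by decide +kernel)
theorem n33_0 : Inf par a33_0 :=
  Inf.steps2 hw _ b33_0 s33_0 c33_0 pt0.right.right.right.right.right.right.right.right.right.right.right.right.right.right.right.right.right.right.right.right.right.right.right.right.right.right.right.right.right.right.right.right.left n33
theorem n32 : Inf par b32_0 :=
  Inf.spG 4 ⟨71634917,0,0⟩ (Inf.cast n33_0 (by decide +kernel)) (Inf.cast n34_0 (by decide +kernel))
theorem n32_0 : Inf par a32_0 :=
  Inf.steps2 hw _ b32_0 s32_0 c32_0 pt0.right.right.right.right.right.right.right.right.right.right.right.right.right.right.right.right.right.right.right.right.right.right.right.right.right.right.right.right.right.right.right.left n32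
theorem n31 : Inf par b31_0 :=
  Inf.empty (by decide +kernel)
theorem n31_0 : Inf par a31_0 :=
  Inf.steps2 hw _ b31_0 s31_0 c31_0 pt0.right.right.right.right.right.right.right.right.right.right.right.right.right.right.right.right.right.right.right.right.right.right.right.right.right.right.right.right.right.right.left n31
theorem n30 : Inf par b30_0 :=
  Inf.empty (by decide +kernel)
theorem n30_0 : Inf par a30_0 :=
  Inf.steps2 hw _ b30_0 s30_0 c30_0 pt0.right.right.right.right.right.right.right.right.right.right.right.right.right.right.right.right.right.right.right.right.right.right.right.right.right.right.right.right.right.left n30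
theorem n29 : Inf par b29_0 :=
  Inf.spG 4 ⟨66341551,0,0⟩ (Inf.cast n30_0 (by decide +kernel)) (Inf.cast n31_0 (by decide +kernel))
theorem n29_0 : Inf par a29_0 :=
  Inf.steps2 hw _ b29_0 s29_0 c29_0 pt0.right.right.right.right.right.right.right.right.right.right.right.right.right.right.right.right.right.right.right.right.right.right.right.right.right.right.right.right.left n29
theorem n28 : Inf par b28_0 :=
  Inf.empty (by decide +kernel)
theorem n28_0 : Inf par a28_0 :=
  Inf.steps2 hw _ b28_0 s28_0 c28_0 pt0.right.right.right.right.right.right.right.right.right.right.right.right.right.right.right.right.right.right.right.right.right.right.right.right.right.right.right.left n28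
theorem n27 : Inf par b27_0 :=
  Inf.empty (by decide +kernel)
theorem n27_0 : Inf par a27_0 :=
  Inf.steps2 hw _ b27_0 s27_0 c27_0 pt0.right.right.right.right.right.right.right.right.right.right.right.right.right.right.right.right.right.right.right.right.right.right.right.right.right.right.left n27
theorem n26 : Inf par b26_0 :=
  Inf.spG 1 ⟨96252733,0,0⟩ (Inf.cast n27_0 (by decide +kernel)) (Inf.cast n28_0 (by decide +kernel))
theorem n26_0 : Inf par a26_0 :=
  Inf.steps2 hw _ b26_0 s26_0 c26_0 pt0.right.right.right.right.right.right.right.right.right.right.right.right.right.right.right.right.right.right.right.right.right.right.right.right.right.left n26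
theorem n25 : Inf par b25_0 :=
  Inf.spG 1 ⟨99226639,0,0⟩ (Inf.cast n26_0 (by decide +kernel)) (Inf.cast n29_0 (by decide +kernel))
theorem n25_0 : Inf par a25_0 :=
  Inf.steps2 hw _ b25_0 s25_0 c25_0 pt0.right.right.right.right.right.right.right.right.right.right.right.right.right.right.right.right.right.right.right.right.right.right.right.right.left n25
theorem n24 : Inf par b24_0 :=
  Inf.spG 1 ⟨105174451,0,0⟩ (Inf.cast n25_0 (by decide +kernel)) (Inf.cast n32_0 (by decide +kernel))
theorem n24_0 : Inf par a24_0 :=
  Inf.steps2 hw _ b24_0 s24_0 c24_0 pt0.right.right.right.right.right.right.right.right.right.right.right.right.right.right.right.right.right.right.right.right.right.right.right.left n24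
theorem n23 : Inf par b23_0 :=
  Inf.spG 4 ⟨75140465,0,0⟩ (Inf.cast n24_0 (by decide +kernel)) (Inf.cast n35_0 (by decide +kernel))
theorem n23_0 : Inf par a23_0 :=
  Inf.steps2 hw _ b23_0 s23_0 c23_0 pt0.right.right.right.right.right.right.right.right.right.right.right.right.right.right.right.right.right.right.right.right.right.right.left n23
theorem n22 : Inf par b22_0 :=
  Inf.empty (by decide +kernel)
theorem n22_0 : Inf par a22_0 :=
  Inf.steps2 hw _ b22_0 s22_0 c22_0 pt0.right.right.right.right.right.right.right.right.right.right.right.right.right.right.right.right.right.right.right.right.right.left n22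
theorem n21 : Inf par b21_0 :=
  Inf.empty (by decide +kernel)
theorem n21_0 : Inf par a21_0 :=
  Inf.steps2 hw _ b21_0 s21_0 c21_0 pt0.right.right.right.right.right.right.right.right.right.right.right.right.right.right.right.right.right.right.right.right.left n21
theorem n20 : Inf par b20_0 :=
  Inf.spG 1 ⟨87574249,0,0⟩ (Inf.cast n21_0 (by decide +kernel)) (Inf.cast n22_0 (by decide +kernel))
theorem n20_0 : Inf par a20_0 :=
  Inf.steps2 hw _ b20_0 s20_0 c20_0 pt0.right.right.right.right.right.right.right.right.right.right.right.right.right.right.right.right.right.right.right.left n20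
theorem n19 : Inf par b19_0 :=
  Inf.empty (by decide +kernel)
theorem n19_0 : Inf par a19_0 :=
  Inf.steps2 hw _ b19_0 s19_0 c19_0 pt0.right.right.right.right.right.right.right.right.right.right.right.right.right.right.right.right.right.right.left n19
theorem n18 : Inf par b18_0 :=
  Inf.empty (by decide +kernel)
theorem n18_0 : Inf par a18_0 :=
  Inf.steps2 hw _ b18_0 s18_0 c18_0 pt0.right.right.right.right.right.right.right.right.right.right.right.right.right.right.right.right.right.left n18
theorem n17 : Inf par b17_0 :=
  Inf.spG 1 ⟨76165091,0,0⟩ (Inf.cast n18_0 (by decide +kernel)) (Inf.cast n19_0 (by decide +kernel))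
theorem n17_0 : Inf par a17_0 :=
  Inf.steps2 hw _ b17_0 s17_0 c17_0 pt0.right.right.right.right.right.right.right.right.right.right.right.right.right.right.right.right.left n17
theorem n16 : Inf par b16_0 :=
  Inf.spG 1 ⟨81869670,0,0⟩ (Inf.cast n17_0 (by decide +kernel)) (Inf.cast n20_0 (by decide +kernel))
theorem n16_0 : Inf par a16_0 :=
  Inf.steps2 hw _ b16_0 s16_0 c16_0 pt0.right.right.right.right.right.right.right.right.right.right.right.right.right.right.right.left n16
theorem n15 : Inf par b15_0 :=
  Inf.empty (by decide +kernel)
theorem n15_0 : Inf par a15_0 :=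
  Inf.steps2 hw _ b15_0 s15_0 c15_0 pt0.right.right.right.right.right.right.right.right.right.right.right.right.right.right.left n15
theorem n14 : Inf par b14_0 :=
  Inf.empty (by decide +kernel)
theorem n14_0 : Inf par a14_0 :=
  Inf.steps2 hw _ b14_0 s14_0 c14_0 pt0.right.right.right.right.right.right.right.right.right.right.right.right.right.left n14
theorem n13 : Inf par b13_0 :=
  Inf.spG 1 ⟨59051356,0,0⟩ (Inf.cast n14_0 (by decide +kernel)) (Inf.cast n15_0 (by decide +kernel))
theorem n13_0 : Inf par a13_0 :=
  Inf.steps2 hw _ b13_0 s13_0 c13_0 pt0.right.right.right.right.right.right.right.right.right.right.right.right.left n13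
theorem n12 : Inf par b12_0 :=
  Inf.spG 1 ⟨70460513,0,0⟩ (Inf.cast n13_0 (by decide +kernel)) (Inf.cast n16_0 (by decide +kernel))
theorem n12_0 : Inf par a12_0 :=
  Inf.steps2 hw _ b12_0 s12_0 c12_0 pt0.right.right.right.right.right.right.right.right.right.right.right.left n12
theorem n11 : Inf par b11_0 :=
  Inf.spG 1 ⟨93278828,0,0⟩ (Inf.cast n12_0 (by decide +kernel)) (Inf.cast n23_0 (by decide +kernel))
theorem n11_0 : Inf par a11_0 :=
  Inf.steps2 hw _ b11_0 s11_0 c11_0 pt0.right.right.right.right.right.right.right.right.right.right.left n11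
theorem n10 : Inf par b10_0 :=
  Inf.spG 1 ⟨138915457,0,0⟩ (Inf.cast n11_0 (by decide +kernel)) (Inf.cast n40_0 (by decide +kernel))
theorem n10_0 : Inf par a10_0 :=
  Inf.steps2 hw _ b10_0 s10_0 c10_0 pt0.right.right.right.right.right.right.right.right.right.left n10
theorem n9 : Inf par b9_0 :=
  Inf.spG 1 ⟨277830914,0,0⟩ (Inf.cast n10_0 (by decide +kernel)) (Inf.cast n53_0 (by decide +kernel))
theorem n9_0 : Inf par a9_0 :=
  Inf.steps2 hw _ b9_0 s9_0 c9_0 pt0.right.right.right.right.right.right.right.right.left n9
theorem n8 : Inf par b8_0 :=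
  Inf.spG 1 ⟨555661828,0,0⟩ (Inf.cast n9_0 (by decide +kernel)) (Inf.cast n64_0 (by decide +kernel))
theorem n8_0 : Inf par a8_0 :=
  Inf.steps2 hw _ b8_0 s8_0 c8_0 pt0.right.right.right.right.right.right.right.left n8
theorem n7 : Inf par b7_0 :=
  Inf.empty (by decide +kernel)
theorem n7_0 : Inf par a7_0 :=
  Inf.steps2 hw _ b7_0 s7_0 c7_0 pt0.right.right.right.right.right.right.left n7
theorem n6 : Inf par b6_0 :=
  Inf.empty (by decide +kernel)
theorem n6_0 : Inf par a6_0 :=
  Inf.steps2 hw _ b6_0 s6_0 c6_0 pt0.right.right.right.right.right.left n6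
theorem n5 : Inf par b5_0 :=
  Inf.empty (by decide +kernel)
theorem n5_0 : Inf par a5_0 :=
  Inf.steps2 hw _ b5_0 s5_0 c5_0 pt0.right.right.right.right.left n5
theorem n4 : Inf par b4_0 :=
  Inf.empty (by decide +kernel)
theorem n4_0 : Inf par a4_0 :=
  Inf.steps2 hw _ b4_0 s4_0 c4_0 pt0.right.right.right.left n4
theorem n3 : Inf par b3_0 :=
  Inf.spX 153 (Inf.cast n4_0 (by decide +kernel)) (Inf.cast n5_0 (by decide +kernel))
theorem n3_0 : Inf par a3_0 :=
  Inf.steps2 hw _ b3_0 s3_0 c3_0 pt0.right.right.left n3
theorem n2 : Inf par b2_0 :=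
  Inf.spX 307 (Inf.cast n3_0 (by decide +kernel)) (Inf.cast n6_0 (by decide +kernel))
theorem n2_0 : Inf par a2_0 :=
  Inf.steps2 hw _ b2_0 s2_0 c2_0 pt0.right.left n2
theorem n1 : Inf par b1_0 :=
  Inf.spX 614 (Inf.cast n2_0 (by decide +kernel)) (Inf.cast n7_0 (by decide +kernel))
theorem n1_0 : Inf par a1_0 :=
  Inf.steps2 hw _ b1_0 s1_0 c1_0 pt0.left n1
def e0 : Box := ⟨0,16384,[⟨0,0,0⟩,⟨0,0,0⟩,⟨0,0,0⟩,⟨0,0,0⟩,⟨0,0,0⟩,⟨0,0,0⟩],[⟨19327352832,0,0⟩,⟨19327352832,0,0⟩,⟨19327352832,0,0⟩,⟨19327352832,0,0⟩,⟨19327352832,0,0⟩,⟨19327352832,0,0⟩]⟩
theorem n0 : Inf par e0 :=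
  Inf.spX 1229 (Inf.cast n1_0 (by decide +kernel)) (Inf.cast n8_0 (by decide +kernel))

theorem main : Inf par (box0 par 0 16384) :=
  Inf.cast n0 (by decide +kernel)

end Crest.Agent.R163.P7a
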