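import Crest.Agent.R163.Q3.D.P7a.S1
import Crest.Agent.R163.Q3.D.P7a.H

set_option autoImplicit false
set_option maxRecDepth 100000
set_option linter.all false
set_option Elab.async false

namespace Crest.Agent.R163.P7a

theorem p1_0_0 : Ok2 par f0 Box3.unit (selB2 1 (selB2 1 C1 11972621396289197305777125640905926561240429730398575) 144115188075855871) :=
  Ok2.run hw hf0 ⟨254,19,19,13,13⟩ 58
    (.chk false 0)
    (by decide +kernel)

theorem p1_0_1 : Ok2 par f0 Box3.unit (selB2 0 (selB2 1 C1 11972621396289197305777125640905926561240429730398575) 144115188075855871) :=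
  Ok2.run hw hf0 ⟨254,19,19,13,13⟩ 58
    (.chk false 0)
    (by decide +kernel)

theorem p1_0_2 : Ok2 par f0 ((Box3.unit.l 0).l 0) (selB2 1 (selB2 0 (selB2 0 C1 11972621396289197305777125640905926561240429730398575) 158594261750153224) 4398046511095) :=
  Ok2.run hw hf0 ⟨304,19,19,13,13⟩ 58
    (.chk false 0)
    (by decide +kernel)

theorem p1_0_3 : Ok2 par f0 ((Box3.unit.l 0).l 0) (selB2 0 (selB2 0 (selB2 0 C1 11972621396289197305777125640905926561240429730398575) 158594261750153224) 4398046511095) :=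
  Ok2.run hw hf0 ⟨324,19,19,13,13⟩ 58
    (.split 0 (.chk false 0) (.chk false 0))
    (by decide +kernel)

theorem p1_0_4 : Ok2 par f0 (((Box3.unit.l 0).r 0).r 1) (selB2 1 (selB2 0 (selB2 0 (selB2 0 C1 11972621396289197305777125640905926561240429730398575) 158594261750153224) 4398046472127) 8) :=
  Ok2.run hw hf0 ⟨324,19,19,13,13⟩ 58
    (.chk false 0)
    (by decide +kernel)

theorem p1_0_5 : Ok2 par f0 (((Box3.unit.l 0).r 0).r 1) (selB2 0 (selB2 0 (selB2 0 (selB2 0 C1 11972621396289197305777125640905926561240429730398575) 158594261750153224) 4398046472127) 8) :=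
  Ok2.run hw hf0 ⟨412,19,19,13,13⟩ 58
    (.split 2 (.split 0 (.chk false 0) (.part 3 (.chk false 0) (.split 1 (.chk false 0) (.split 2 (.split 0 (.chk false 0) (.chk false 0)) (.chk false 0))))) (.chk false 0))
    (by decide +kernel)

theorem p1_0_6 : Ok2 par f0 (((Box3.unit.l 0).r 0).l 1) (selB2 0 (selB2 0 (selB2 0 C1 11972621396289197305777125640905926561240429730398575) 158594261750153224) 4398046472127) :=
  Ok2.run hw hf0 ⟨324,19,19,13,13⟩ 58
    (.chk false 0)
    (by decide +kernel)

theorem p1_0_7 : Ok2 par f0 ((Box3.unit.l 0).r 0) (selB2 1 (selB2 0 (selB2 0 C1 11972621396289197305777125640905926561240429730398575) 158594261750153224) 4398046472127) :=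
  Ok2.run hw hf0 ⟨295,19,19,13,13⟩ 58
    (.chk false 0)
    (by decide +kernel)

theorem p1_0_8 : Ok2 par f0 (Box3.unit.l 0) (selB2 1 (selB2 0 C1 11972621396289197305777125640905926561240429730398575) 158594261750153224) :=
  Ok2.run hw hf0 ⟨282,19,19,13,13⟩ 58
    (.chk false 0)
    (by decide +kernel)

theorem p1_0_9 : Ok2 par f0 (Box3.unit.r 0) (selB2 1 (selB2 0 C1 11972621396289197305777125640905926561240429730398575) 576179277326712831) :=
  Ok2.run hw hf0 ⟨282,19,19,13,13⟩ 58
    (.chk false 0)
    (by decide +kernel)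

theorem p1_0_10 : Ok2 par f0 (Box3.unit.r 0) (selB2 0 (selB2 0 C1 11972621396289197305777125640905926561240429730398575) 576179277326712831) :=
  Ok2.run hw hf0 ⟨333,19,19,13,13⟩ 58
    (.split 1 (.chk false 0) (.split 0 (.chk false 0) (.chk false 0)))
    (by decide +kernel)

theorem p1_1_0 : Ok2 par f1 Box3.unit (selB2 1 (selB2 1 C1 11972621395851212028867376788070660372925707673075819) 1125899906842623) :=
  Ok2.run hw hf1 ⟨257,19,19,16,13⟩ 58
    (.chk false 0)
    (by decide +kernel)

theorem p1_1_1 : Ok2 par f1 Box3.unit (selB2 0 (selB2 1 C1 11972621395851212028867376788070660372925707673075819) 1125899906842623) :=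
  Ok2.run hw hf1 ⟨257,19,19,16,13⟩ 58
    (.chk false 0)
    (by decide +kernel)

theorem p1_1_2 : Ok2 par f1 (Box3.unit.l 0) (selB2 1 (selB2 1 (selB2 0 C1 11972621395851212028867376788070660372925707673075819) 8854437155380584775487) 34359738367) :=
  Ok2.run hw hf1 ⟨285,19,19,16,13⟩ 58
    (.chk false 0)
    (by decide +kernel)

theorem p1_1_3 : Ok2 par f1 (Box3.unit.l 0) (selB2 0 (selB2 1 (selB2 0 C1 11972621395851212028867376788070660372925707673075819) 8854437155380584775487) 34359738367) :=
  Ok2.run hw hf1 ⟨285,19,19,16,13⟩ 58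
    (.chk false 0)
    (by decide +kernel)

theorem p1_1_4 : Ok2 par f1 (Box3.unit.l 0) (selB2 0 (selB2 0 C1 11972621395851212028867376788070660372925707673075819) 8854437155380584775487) :=
  Ok2.run hw hf1 ⟨329,19,19,16,13⟩ 58
    (.split 2 (.chk false 0) (.split 0 (.chk false 0) (.chk false 0)))
    (by decide +kernel)

theorem p1_1_5 : Ok2 par f1 (Box3.unit.r 0) (selB2 1 (selB2 1 (selB2 0 C1 11972621395851212028867376788070660372925707673075819) 9444732965739253138883) 536870911) :=
  Ok2.run hw hf1 ⟨285,19,19,16,13⟩ 58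
    (.chk false 0)
    (by decide +kernel)

theorem p1_1_6 : Ok2 par f1 (Box3.unit.r 0) (selB2 0 (selB2 1 (selB2 0 C1 11972621395851212028867376788070660372925707673075819) 9444732965739253138883) 536870911) :=
  Ok2.run hw hf1 ⟨285,19,19,16,13⟩ 58
    (.chk false 0)
    (by decide +kernel)

theorem p1_1_7 : Ok2 par f1 (((Box3.unit.r 0).r 2).l 1) (selB2 0 (selB2 0 C1 11972621395851212028867376788070660372925707673075819) 9444732965739253138883) :=
  Ok2.run hw hf1 ⟨336,19,19,16,13⟩ 58
    (.chk false 0)
    (by decide +kernel)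

theorem p1_1_8 : Ok2 par f1 (((Box3.unit.r 0).r 2).r 1) (selB2 0 (selB2 0 C1 11972621395851212028867376788070660372925707673075819) 9444732965739253138883) :=
  Ok2.run hw hf1 ⟨358,19,19,16,13⟩ 58
    (.part 16 (.chk false 0) (.split 0 (.chk false 0) (.chk false 0)))
    (by decide +kernel)

theorem p1_1_9 : Ok2 par f1 ((Box3.unit.r 0).l 2) (selB2 0 (selB2 0 C1 11972621395851212028867376788070660372925707673075819) 9444732965739253138883) :=
  Ok2.run hw hf1 ⟨307,19,19,16,13⟩ 58
    (.chk false 0)
    (by decide +kernel)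

theorem p1_2_0 : Ok2 par f2 Box3.unit (selB2 1 (selB2 0 C1 77371252455336267181195263) 8796093022207) :=
  Ok2.run hw hf2 ⟨257,19,19,16,13⟩ 58
    (.chk false 0)
    (by decide +kernel)

theorem p1_2_1 : Ok2 par f2 Box3.unit (selB2 0 (selB2 0 C1 77371252455336267181195263) 8796093022207) :=
  Ok2.run hw hf2 ⟨257,19,19,16,13⟩ 58
    (.chk false 0)
    (by decide +kernel)

theorem p1_2_2 : Ok2 par f2 Box3.unit (selB2 1 (selB2 1 C1 77371252455336267181195263) 8796093022207) :=
  Ok2.run hw hf2 ⟨257,19,19,16,13⟩ 58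
    (.chk false 0)
    (by decide +kernel)

theorem p1_2_3 : Ok2 par f2 Box3.unit (selB2 0 (selB2 1 C1 77371252455336267181195263) 8796093022207) :=
  Ok2.run hw hf2 ⟨257,19,19,16,13⟩ 58
    (.chk false 0)
    (by decide +kernel)

theorem p1_3_0 : Ok2 par f3 Box3.unit (selB2 1 (selB2 0 (selB2 1 C1 11972618558519371294004824033039851598031126626566143) 77371252455336267181195263) 8796093022207) :=
  Ok2.run hw hf3 ⟨257,19,19,16,13⟩ 58
    (.chk false 0)
    (by decide +kernel)

theorem p1_3_1 : Ok2 par f3 Box3.unit (selB2 0 (selB2 0 (selB2 1 C1 11972618558519371294004824033039851598031126626566143) 77371252455336267181195263) 8796093022207) :=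
  Ok2.run hw hf3 ⟨257,19,19,16,13⟩ 58
    (.chk false 0)
    (by decide +kernel)

theorem p1_3_2 : Ok2 par f3 Box3.unit (selB2 1 (selB2 1 (selB2 1 C1 11972618558519371294004824033039851598031126626566143) 77371252455336267181195263) 8796093022207) :=
  Ok2.run hw hf3 ⟨257,19,19,16,13⟩ 58
    (.chk false 0)
    (by decide +kernel)

theorem p1_3_3 : Ok2 par f3 Box3.unit (selB2 0 (selB2 1 (selB2 1 C1 11972618558519371294004824033039851598031126626566143) 77371252455336267181195263) 8796093022207) :=
  Ok2.run hw hf3 ⟨257,19,19,16,13⟩ 58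
    (.chk false 0)
    (by decide +kernel)

theorem p1_3_4 : Ok2 par f3 Box3.unit (selB2 0 C1 11972618558519371294004824033039851598031126626566143) :=
  Ok2.run hw hf3 ⟨285,19,19,16,13⟩ 58
    (.split 0 (.chk false 0) (.chk false 0))
    (by decide +kernel)


end Crest.Agent.R163.P7a
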